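import Crest.Agent.N228.Gr.Graft
import Crest.Agent.N228.G.Final
import Crest.Agent.N228.G.Proj

/-! # Row 228, block G: the path theorem, unconditional (helper90) -/

set_option autoImplicit false

namespace Crest.Agent.N228.Gr

open Crest.Agent.N228.G

/-- **G** -/
theorem gstmt : GStmt := gstmt_of' proj (graft car)

end Crest.Agent.N228.Gr
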