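import Crest.Agent.N228.Gr.Slc
import Crest.Agent.N228.W.All

/-!
# Row 228, graft: the path on the slice is extended to the manifold (helper90)
-/

set_option autoImplicit false
set_option linter.unusedSectionVars false
open Set Filter Topology Function Real
open scoped ContDiff
open Crest.Agent.N222 Crest.Agent.N222.A Crest.Agent.N228.G

noncomputable section

namespace Crest.Agent.N228.Gr

variable {m : ℕ} {ι C : Type} [Fintype ι] [DecidableEq ι] [Fintype C] [DecidableEq C]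
  {X : Type} [TopologicalSpace X] [T2Space X] [SecondCountableTopology X] [MeasurableSpace X]
  [BorelSpace X] [CompactSpace X]

/-- the data of the graft -/
structure GD {κ : Type} [Fintype κ] [DecidableEq κ] (M : Imm (m + 1) ι X) (A U : Set X)
    (η r : C → ℝ) (μ : ℝ) (ψ : C → X → ℝ) (𝒰 : Ultrafilter ℕ) (u : ℕ → X → ℝ)
    (N : Imm m ι (M.Sig 𝒰 u)) (D : ℝ → X → DW κ C) (Z : Set (M.Sig 𝒰 u)) : Prop where
  sm : SmJ M.ch univ D
  zero : ∀ q, (D 0 q).1 = 0 ∧ (D 0 q).2.1 = ev ψ q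
  loc : ∀ s, ∀ q ∉ U, (D s q).1 = 0 ∧ (D s q).2.1 = ev ψ q
  shr : ∀ s ∈ Icc (0 : ℝ) 1, ∀ p ∈ Sb 𝒰 u, ∀ b, Shr1 (ψ b p) ((D s p).2.1 b)
  cpt : IsCompact Z
  good : ∀ s ∈ Icc (0 : ℝ) 1, ∀ p ∈ Z, tri N (fun q => D s q) p ∈ GS m η r μ
  few : ∀ p ∈ Sb 𝒰 u, p ∈ A → p ∈ Subtype.val '' Z ∨ Few m (ev ψ p)
  one : ∀ p ∈ Z, Few m (D 1 p).2.1

variable {M : Imm (m + 1) ι X} {A U : Set X} {η r : C → ℝ} {μ : ℝ} {ℓ : ℕ → C → ℝ}
  {φ : C → X → ℝ} {c : C} {ρ : ℝ} {F : X → ℝ} {𝒰 : Ultrafilter ℕ} {u : ℕ → X → ℝ}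

/-- the slice lies in the band -/
theorem sb_band {a : X → ℝ} (ha : Continuous a) (h : ∀ᶠ j in (𝒰 : Filter ℕ), ∀ p,
    (π / 2 ≤ a p → 1 ≤ u j p) ∧ (a p ≤ -(π / 2) → u j p ≤ -1)) {p : X} (hp : p ∈ Sb 𝒰 u) :
    |a p| ≤ π / 2 := by
  refine abs_le.2 ⟨not_lt.1 fun h' => hp (Or.inr ?_), not_lt.1 fun h' => hp (Or.inl ?_)⟩
  · exact ⟨_, ha.continuousAt.eventually (gt_mem_nhds h'), h.mono fun j hj q hq => by
      linarith [(hj q).2 (le_of_lt hq)]⟩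
  · exact ⟨_, ha.continuousAt.eventually (lt_mem_nhds h'), h.mono fun j hj q hq => by
      linarith [(hj q).1 (le_of_lt hq)]⟩

theorem exists_gd (hC : CarStmt) (hS : SStmt m) (hx : Ctx M A η r μ φ) (hI : Inn (m + 1) A φ c)
    (hL : Led1 η ℓ m A φ c ρ) (hρ : ρ ≤ r c) (hB : IsClosed (M.Bad 𝒰 u))
    (hc : ∀ p ∈ Sb 𝒰 u, |φ c p| ≤ π / 2) {N : Imm m ι (M.Sig 𝒰 u)} (hN : Neck M 𝒰 u N) {ε : ℝ}
    {w : X → ℝ} {ψ : ℝ → C → X → ℝ} {V : M.Sig 𝒰 u → ℝ} {T O : Set X}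
    (h : Mid M A U η r μ ℓ φ c ρ F 𝒰 u N ε w ψ V T O) :
    ∃ (κ : Type) (_ : Fintype κ) (_ : DecidableEq κ) (D : ℝ → X → DW κ C) (Z : Set (M.Sig 𝒰 u)),
      GD M A U η r (μ + (r c - ρ) + η c / 4) (ψ 1) 𝒰 u N D Z := by
  obtain ⟨T1, t1, t2, t3⟩ := normal_exists_closure_subset hB h.opT h.bad
  have hl : ∀ q, Loc N M Subtype.val q := Loc.of_cont continuous_subtype_val hN.x
  have hψ : ∀ b, M.Sm (ψ 1 b) := fun b => (h.jc b).sm rfl 1
  have hη := hx.eta c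
  have hs : ∀ p, fin (ev (ψ 1) p) ⊆ fin (ev (park φ c) p) := fun p =>
    fin_subset fun b => h.shr 1 (right_mem_Icc.2 zero_le_one) b p
  have hZ : IsCompact {q : M.Sig 𝒰 u | q.1 ∈ A ∧ q.1 ∉ T1} := by
    rw [Subtype.isCompact_iff]
    convert ((Cv.isClosed_Sb 𝒰 u).inter (hx.cl.inter t1.isClosed_compl)).isCompact using 1
    refine Subset.antisymm ?_ fun p hp => ⟨⟨p, hp.1, fun h' => hp.2.2 (t2 h')⟩, hp.2, rfl⟩
    rintro _ ⟨q, hq, rfl⟩
    exact ⟨q.2.1, hq⟩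
  obtain ⟨κ, i1, i2, g, G, K, k1, -, g1, g2, g3, g4, g5, g6, g7⟩ := slice_path hC hS (N := N)
    (fun q q' e => Subtype.ext (hx.inj (by rw [← hN.x, ← hN.x, e]))) h.smV h.form hZ isOpen_univ
    (subset_univ _) (ψ := fun b q => ψ 1 b q.1) (fun b => (hψ b).res hl) hx.eta hx.res
    (μ := μ + (r c - ρ) + η c / 4) (δ := η c / 4) (ℓ := ℓ) (by linarith [hx.mu]) (by linarith)
    ⟨hL.1.1, hL.1.2.1, fun k q hq b hb => (add_le_add_right (Finset.sum_le_sum_of_subset_of_nonneg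
      (hs q) fun b _ _ => hL.1.1 k b) _).trans (hL.1.2.2 k q hq.1 b (hs q hb))⟩
    (fun q hq => by
      by_cases hT : q.1 ∈ T
      · exact Or.inl (h.few q hT)
      refine (hI q hq.1 (hc q q.2.1)).imp (fun h' => few_of_subset ?_ (hs q)) fun h' => ?_
      · convert few_park h' (hc q q.2.1) using 1
        exact apply_update (fun _ (f : X → ℝ) => f q) φ c _ |> funext
      · refine mem_interior_iff_mem_nhds.2 (mem_of_superset
          (((isOpen_interior.inter isClosed_closure.isOpen_compl).preimage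
            continuous_subtype_val).mem_nhds ⟨h', fun h2 => hT (t3 h2)⟩) fun q' hq' => ?_)
        exact ⟨interior_subset hq'.1, fun h2 => hq'.2 (subset_closure h2)⟩)
    fun q hq => good_up (h.slc q hq.1) (by linarith)
  have hK : ∀ q ∈ K, q.1 ∈ O ∩ (M.Bad 𝒰 u)ᶜ := fun q _ => ⟨h.sb q.2.1, q.2.2⟩
  obtain ⟨g', K', -, a1, a2, a3, a4, a5⟩ :=
    exists_extJ (h.opO.inter hB.isOpen_compl) hN.chart hN.x k1 hK g1 g4
  obtain ⟨G', -, -, -, b2, b3, -⟩ :=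
    exists_extJ (h.opO.inter hB.isOpen_compl) hN.chart hN.x k1 hK g2 g5
  refine ⟨κ, i1, i2, fun s p => ((g' s p).1, ev (ψ 1) p + (g' s p).2, G' s p), _, ?_, fun q => ?_,
    fun s q hq => ?_, fun s hs p hp b => ?_, hZ, fun s hs p hp => ?_, fun p hp hA => ?_,
    fun p hp => ?_⟩
  · exact (a2.comp contDiff_fst).prodMk
      (((SmJ.of_smA (smA_pi hψ)).add (a2.comp contDiff_snd)).prodMk b2)
  · simp [a5 0 g3 q]
  · simp [a4 s q fun h' => hq (h.sub (a1 h').1)]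
  · by_cases hp' : p ∈ M.Bad 𝒰 u
    · simp only [a4 s p fun h' => (a1 h').2 hp', Prod.snd_zero, add_zero]
      exact shr1_refl _
    · have := (g6 s hs).2 b ⟨p, hp, hp'⟩
      rwa [← a3] at this
  · simp only [a3, b3]
    exact (g6 s hs).1 p hp
  · by_cases hT : p ∈ T1
    · exact Or.inr (h.few p (t3 (subset_closure hT)))
    · exact Or.inl ⟨⟨p, hp, fun h' => hT (t2 h')⟩, ⟨hA, hT⟩, rfl⟩
  · simp only [a3]
    exact g7 p hp

end Crest.Agent.N228.Gr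

end
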