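import Crest.Agent.N228.Gr.Neck
import Crest.Agent.N228.J.Path
import Crest.Agent.N222.F.Bump

/-!
# Row 228, graft: extension of families from the slice, families of weights (helper90)
-/

set_option autoImplicit false
set_option linter.unusedSectionVars false
open Set Filter Topology Function Metric
open scoped ContDiff
open Crest.Agent.N222 Crest.Agent.N222.A

noncomputable section

namespace Crest.Agent.N228.Gr

variable {d m : ℕ} {ι κ : Type} [Fintype ι] [Fintype κ] {X Y : Type} [TopologicalSpace X]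
  [TopologicalSpace Y] {P W : Type} [NormedAddCommGroup P] [NormedSpace ℝ P]
  [NormedAddCommGroup W] [NormedSpace ℝ W]

/-- cutting off a locally smooth family -/
theorem smJ_cut {M : Imm d ι X} {χ : X → ℝ} (hχ : M.Sm χ) {g : P → X → W}
    (h : ∀ p ∈ tsupport χ, ∀ s, ∃ e : OpenPartialHomeomorph X (E (Fin d)), IsChart M.x e ∧
      p ∈ e.source ∧ ContDiffAt ℝ ∞ (fun r : E (Fin d) × P => g r.2 (e.symm r.1)) (e p, s)) :
    SmJ M.ch univ fun s p => χ p • g s p := by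
  refine SmJ.of_charts fun p s _ => ?_
  by_cases hp : p ∈ tsupport χ
  · obtain ⟨e, he, h1, h2⟩ := h p hp s
    exact ⟨e, he, h1, (((hχ.chart he).contDiffAt (e.open_target.mem_nhds (e.map_source h1))).comp
      (f := Prod.fst) (e p, s) contDiffAt_fst).smul h2⟩
  · refine ⟨M.ch p, M.isChart p, M.mem p, (contDiffAt_const (c := 0)).congr_of_eventuallyEq ?_⟩
    filter_upwards [(continuousAt_fst (p := (M.ch p p, s))).eventually (symm_eventuallyEq (M.mem p)
      (notMem_tsupport_iff_eventuallyEq.1 hp))] with r hr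
    rw [show χ ((M.ch p).symm r.1) = 0 from hr, zero_smul]

/-- pull-back along a local isometry -/
theorem smJ_pull {N : Imm d ι X} {M : Imm d κ Y} {j : X → Y} {χ : X → ℝ} (hχ : N.Sm χ)
    (h : ∀ p ∈ tsupport χ, LI N M j p) {g : P → Y → W} (hg : SmJ M.ch univ g) :
    SmJ N.ch univ fun s p => χ p • g s (j p) :=
  smJ_cut hχ fun p hp s => by
    obtain ⟨L, c, hl⟩ := (h p hp).loc
    exact ⟨N.ch p, N.isChart p, N.mem p, smJ_at hl hg s⟩

/-- **extension** of a family from a hypersurface -/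
theorem exists_extJ [T2Space X] [SecondCountableTopology X] {M : Imm (m + 1) ι X} {S U : Set X}
    (hU : IsOpen U) (h : ∀ q ∈ S, ∃ e : OpenPartialHomeomorph X (E (Fin (m + 1))), IsChart M.x e ∧
      q ∈ e.source ∧ ∀ p ∈ e.source, p ∈ S ↔ e p 0 = 0) {N : Imm m ι S} (hN : ∀ q, N.x q = M.x q)
    {K : Set S} (hK : IsCompact K) (hKU : ∀ q ∈ K, q.1 ∈ U) {f : P → S → W}
    (hf : SmJ N.ch univ f) (h0 : ∀ s, ∀ q ∉ K, f s q = 0) :
    ∃ (f' : P → X → W) (K' : Set X), IsCompact K' ∧ K' ⊆ U ∧ SmJ M.ch univ f' ∧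
      (∀ s (q : S), f' s q = f s q) ∧ (∀ s, ∀ p ∉ K', f' s p = 0) ∧
      ∀ s, (∀ q, f s q = 0) → ∀ p, f' s p = 0 := by
  have hx : N.x = fun q : S => M.x q := funext hN
  have H : ∀ q : S, ∃ (V : Set X) (r : X → S), IsOpen V ∧ q.1 ∈ V ∧ (∀ p : S, p.1 ∈ V → r p = p) ∧
      ∀ p ∈ V, ∀ s, ∃ e : OpenPartialHomeomorph X (E (Fin (m + 1))), IsChart M.x e ∧
        p ∈ e.source ∧
        ContDiffAt ℝ ∞ (fun z : E (Fin (m + 1)) × P => f z.2 (r (e.symm z.1))) (e p, s) := fun q => by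
    obtain ⟨e, he, hq, hs⟩ := h q q.2
    obtain ⟨e', he', h1, -, h3, -⟩ := exists_sliceChart he hs q
    rw [← hx] at he'
    refine ⟨e.source ∩ e ⁻¹' (tail0 ⁻¹' e'.target), fun p => e'.symm (tail0 (e p)),
      e.isOpen_inter_preimage (e'.open_target.preimage contDiff_tail0.continuous), ⟨hq, ?_⟩,
      fun p hp => ?_, fun p hp s => ⟨e, he, hp.1, ?_⟩⟩
    · change tail0 (e q) ∈ e'.target
      rw [← h3]
      exact e'.map_source (h1 ▸ hq)
    · beta_reduce
      rw [← h3, e'.left_inv (h1 ▸ hp.1)]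
    · refine (((hf.chart isOpen_univ he').contDiffAt (x := (tail0 (e p), s))
        ((e'.open_target.prod isOpen_univ).mem_nhds ⟨hp.2, mem_univ s⟩)).comp
        (f := fun z : E (Fin (m + 1)) × P => (tail0 z.1, z.2)) (e p, s)
        ((contDiff_tail0.comp contDiff_fst).prodMk contDiff_snd).contDiffAt).congr_of_eventuallyEq ?_
      filter_upwards [(continuousAt_fst (p := (e p, s))).eventually
        (e.open_target.eventually_mem (e.map_source hp.1))] with y hy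
      simp only [comp_apply, e.right_inv hy]
  choose V r h1 h2 h3 h4 using H
  obtain ⟨n, φ, i, h6, -, h7⟩ := M.exists_partition (hK.image continuous_subtype_val)
    (fun q => V q ∩ U) (fun q => (h1 q).inter hU)
    (by rintro _ ⟨q, hq, rfl⟩; exact mem_iUnion.2 ⟨q, h2 q, hKU q hq⟩)
  refine ⟨fun s p => ∑ k, φ k p • f s (r (i k) p), ⋃ k, tsupport (φ k),
    isCompact_iUnion fun k => (h6 k).1.cs, iUnion_subset fun k p hp => ((h6 k).2.1 hp).2,
    SmJ.sum _ fun k _ => smJ_cut (h6 k).1.sm fun p hp s => h4 _ p ((h6 k).2.1 hp).1 s,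
    fun s q => ?_, fun s p hp => Finset.sum_eq_zero fun k _ => ?_,
    fun s hs p => Finset.sum_eq_zero fun k _ => by rw [hs, smul_zero]⟩
  · have h8 : ∀ k, φ k q • f s (r (i k) q) = φ k q • f s q := fun k => by
      by_cases hk : φ k q = 0
      · rw [hk, zero_smul, zero_smul]
      · rw [h3 _ q ((h6 k).2.1 (subset_tsupport _ hk)).1]
    simp only [h8, ← Finset.sum_smul]
    by_cases hq : q ∈ K
    · rw [h7.self_of_nhdsSet _ ⟨q, hq, rfl⟩, one_smul]
    · rw [h0 s q hq, smul_zero]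
  · rw [image_eq_zero_of_notMem_tsupport fun h' => hp (mem_iUnion.2 ⟨k, h'⟩), zero_smul]

/-- **families of weights** -/
theorem exists_famJ {ch : X → OpenPartialHomeomorph X (E (Fin d))} {R : ℝ → (X → W) → Prop}
    (h1 : ∀ s ∈ Icc (0 : ℝ) 1, ∃ F, SmA ch F ∧ ∀ᶠ s' in 𝓝 s, R s' F)
    (h2 : ∀ s F F' (l : ℝ), SmA ch F → SmA ch F' → l ∈ Icc (0 : ℝ) 1 → R s F → R s F' →
      R s fun p => (1 - l) • F p + l • F' p) :
    ∃ F : ℝ → X → W, SmJ ch univ F ∧ ∀ s ∈ Icc (0 : ℝ) 1, R s (F s) := by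
  choose! F hF hR using h1
  obtain ⟨δ, hδ, H⟩ := lebesgue_number_lemma_of_metric (s := Icc (0 : ℝ) 1) isCompact_Icc
    (c := fun s : Icc (0 : ℝ) 1 => interior {s' | R s' (F s)}) (fun _ => isOpen_interior)
    fun s hs => mem_iUnion.2 ⟨⟨s, hs⟩, mem_interior_iff_mem_nhds.2 (hR s hs)⟩
  have H' : ∀ t : ℝ, ∃ G, SmA ch G ∧ (t ∈ Icc (0 : ℝ) 1 → ∀ s, |t - s| ≤ δ / 2 → R s G) := fun t => by
    by_cases ht : t ∈ Icc (0 : ℝ) 1
    · obtain ⟨i, hi⟩ := H t ht
      exact ⟨F i, hF i i.2, fun _ s hs => interior_subset (s := {s' | R s' (F i)}) (hi (by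
        rw [mem_ball, Real.dist_eq, abs_sub_comm]; linarith))⟩
    · exact ⟨fun _ => 0, fun _ => contDiffOn_const, fun h => (ht h).elim⟩
  choose G g1 g2 using H'
  obtain ⟨v, v1, -, -, v2⟩ := J.exists_path g1 (half_pos hδ)
  refine ⟨v, v1, fun s hs => ?_⟩
  obtain ⟨z, hz, rfl, e⟩ := v2 s hs
  rw [e]
  exact h2 _ _ _ _ (g1 _) (g1 _) hz.2.2.2.1 (g2 _ hz.2.1 _ hz.2.2.2.2.1) (g2 _ hz.2.2.1 _ hz.2.2.2.2.2)

end Crest.Agent.N228.Gr

end
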