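import Crest.Agent.N228.Gr.Lim

/-!
# Row 228: GRAFT (helper90)
-/

set_option autoImplicit false
set_option linter.unusedSectionVars false
open Set Filter Topology Function Real
open scoped ContDiff
open Crest.Agent.N222 Crest.Agent.N222.A Crest.Agent.N228.G
open Crest.Agent.N228.J (JC)

noncomputable section

namespace Crest.Agent.N228.Gr

variable {d : ℕ} {ι C κ : Type} [Fintype ι] [DecidableEq ι] [Fintype C] [Fintype κ] [DecidableEq κ]
  {X : Type} [TopologicalSpace X] [T2Space X] [SecondCountableTopology X] [MeasurableSpace X]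
  [BorelSpace X] [CompactSpace X]

/-- two weights are glued along a long neck -/
theorem inD_glue {Γ : Imm d ι X} {A : Set X} {η r : C → ℝ} {μ ε L B : ℝ} {y : κ → X → ℝ}
    (hy : ∀ i, Γ.Sm (y i)) {χ χ0 : C → X → ℝ} {u F1 F2 : X → ℝ} (hu : Γ.Sm u)
    (h1 : ∀ p, Γ.pre.gam u u p ≤ 1) {θ : ℝ → ℝ} (hθ : ContDiff ℝ ∞ θ)
    (t1 : ∀ t, |t| ≤ 5 / 2 → θ t = 1) (t0 : ∀ t, 3 ≤ |t| → θ t = 0) (hB : ∀ t, |deriv θ t| ≤ B)
    (hL : 0 < L) (hF1 : Γ.Sm F1) (hF2 : Γ.Sm F2) (hε : π ^ 2 * (B / L) ^ 2 < ε)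
    (hz : ∀ p, 2 * L < |u p| → (∀ i, y i p = 0) ∧ ∀ b, χ b p = χ0 b p)
    (g1 : ∀ p ∈ A, Good d η r (Γ.pre.EF F1 p - μ - ε) (ev χ0 p) (gr Γ χ0 p))
    (g2 : ∀ p ∈ A, |u p| ≤ 3 * L →
      Good d η r ((Γ.xt y).pre.EF F2 p - μ - ε) (ev χ p) (gr (Γ.xt y) χ p)) :
    InD (Γ.xt y) A η r μ χ := by
  have hU : IsOpen {p | 2 * L < |u p|} := isOpen_lt continuous_const hu.continuous.abs
  have hu' : Γ.Sm fun p => L⁻¹ * u p := (Imm.sm_const _).mul hu
  have ha : ∀ p, |L⁻¹ * u p| = |u p| / L := fun p => by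
    rw [abs_mul, abs_of_pos (inv_pos.2 hL), inv_mul_eq_div]
  have hs : (Γ.xt y).Sm fun p => θ (L⁻¹ * u p) := hu'.comp hθ
  have hsp : tsupport (fun p => 1 - θ (L⁻¹ * u p)) ⊆ {p | 2 * L < |u p|} := by
    refine (closure_minimal (t := {p | 5 / 2 * L ≤ |u p|}) (support_subset_iff.2 fun p hp =>
      (not_lt.1 fun h => hp ?_ : 5 / 2 * L ≤ |u p|)) (isClosed_le continuous_const hu.continuous.abs)).trans fun p hp => ?_
    · rw [t1 _ (by rw [ha, div_le_iff₀ hL]; exact h.le), sub_self]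
    · rw [mem_ofPred_eq] at hp ⊢
      linarith
  have c1 := hF1.EF.continuous
  have c2 := (Imm.Sm.EF (M := Γ.xt y) hF2).continuous
  obtain ⟨F, hF, H⟩ := lin (((((continuous_cos.comp (continuous_const.mul hs.continuous)).pow 2).mul
    c1).add (((continuous_sin.comp (continuous_const.mul hs.continuous)).pow 2).mul c2)).sub
      (continuous_const.mul (hs.gam hs).continuous))
    (ims_cut hs ((formOn_of_form (form_EF hF1) _).of_eq hU (inlL ι κ) 0
      fun p hp => xt_zero hy (hz p hp).1) (formOn_of_form (form_EF (M := Γ.xt y) hF2) univ)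
      hsp (subset_univ _) c1 c2) (sub_pos.2 hε)
  refine ⟨F, hF, fun p hp => ?_⟩
  have h2 : (Γ.xt y).pre.gam (fun p => θ (L⁻¹ * u p)) (fun p => θ (L⁻¹ * u p)) p ≤ (B / L) ^ 2 := by
    have a1 : Γ.pre.gam (fun p => θ (L⁻¹ * u p)) (fun p => θ (L⁻¹ * u p)) p =
        (deriv θ (L⁻¹ * u p) / L) ^ 2 * Γ.pre.gam u u p := by
      simp only [Imm.gam_apply, Imm.D_comp (hu'.diffAt p)
        (hθ.differentiable (by simp) _).hasDerivAt, Imm.D_const_mul _ (hu.diffAt p), Finset.mul_sum]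
      exact Finset.sum_congr rfl fun _ _ => by ring
    have a2 : (deriv θ (L⁻¹ * u p) / L) ^ 2 ≤ (B / L) ^ 2 := by
      rw [div_pow, div_pow]
      exact div_le_div_of_nonneg_right (sq_le_sq' (abs_le.1 (hB _)).1 (abs_le.1 (hB _)).2)
        (sq_nonneg _)
    rw [Imm.gam_self_eq]
    refine (pow_le_pow_left₀ (norm_nonneg _) (xt_grad_le Γ y _ p) 2).trans ?_
    rw [← Imm.gam_self_eq, a1]
    exact (mul_le_of_le_one_right (sq_nonneg _) (h1 p)).trans a2
  have h3 := mul_le_mul_of_nonneg_left h2 (sq_nonneg π)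
  have h4 : cos (π / 2 * θ (L⁻¹ * u p)) ^ 2 * Γ.pre.EF F1 p +
      sin (π / 2 * θ (L⁻¹ * u p)) ^ 2 * (Γ.xt y).pre.EF F2 p -
      π ^ 2 * (Γ.xt y).pre.gam (fun p => θ (L⁻¹ * u p)) (fun p => θ (L⁻¹ * u p)) p -
      (ε - π ^ 2 * (B / L) ^ 2) ≤ (Γ.xt y).pre.EF F p := H p
  have g3 : 2 * L < |u p| → Good d η r (Γ.pre.EF F1 p - μ - ε) (ev χ p) (gr (Γ.xt y) χ p) :=
    fun h => by
      rw [show ev χ p = ev χ0 p from funext (hz p h).2]
      refine good_mono (g1 p hp) le_rfl (fun b => (xt_grad_le Γ y _ p).trans_eq ?_) fun _ => le_rfl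
      have e : χ b =ᶠ[𝓝 p] χ0 b := mem_of_superset (hU.mem_nhds h) fun q hq => (hz q hq).2 b
      rw [gr, norm_grad, norm_grad, Imm.gam_congr e e]
  rcases le_or_gt |u p| (2 * L) with h | h
  · rw [t1 (L⁻¹ * u p) (by rw [ha, div_le_iff₀ hL]; linarith), mul_one, cos_pi_div_two, sin_pi_div_two] at h4
    exact good_up (g2 p hp (by linarith)) (by linarith)
  rcases le_or_gt |u p| (3 * L) with h' | h'
  · refine good_conv (g3 h) (g2 p hp h') (sq_nonneg _) (sq_nonneg _)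
      (cos_sq_add_sin_sq (π / 2 * θ (L⁻¹ * u p))) ?_
    linear_combination h4 + h3 - (μ + ε) * cos_sq_add_sin_sq (π / 2 * θ (L⁻¹ * u p))
  · rw [t0 (L⁻¹ * u p) (by rw [ha, le_div_iff₀ hL]; linarith), mul_zero, cos_zero, sin_zero] at h4
    exact good_up (g3 h) (by linarith)

theorem exists_cut {a b : ℝ} (ha : 0 < a) (hab : a < b) : ∃ θ : ℝ → ℝ, ContDiff ℝ ∞ θ ∧
    (∀ t, θ t ∈ Icc (0 : ℝ) 1) ∧ (∀ t, |t| ≤ a → θ t = 1) ∧ (∀ t, b ≤ |t| → θ t = 0) ∧
    ∃ B, ∀ t, |deriv θ t| ≤ B := by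
  let f : ContDiffBump (0 : ℝ) := ⟨a, b, ha, hab⟩
  refine ⟨f, f.contDiff, fun t => ⟨f.nonneg, f.le_one⟩,
    fun t ht => f.one_of_mem_closedBall (by simpa using ht),
    fun t ht => f.zero_of_le_dist (by simpa using ht), ?_⟩
  exact ((f.contDiff (n := 1)).continuous_deriv le_rfl).bounded_above_of_compact_support
    f.hasCompactSupport.deriv

/-- **GRAFT** -/
theorem graft (hC : CarStmt) : GraftStmt := by
  intro m hS ι _ _ X _ _ _ _ _ _ C _ _ M A η r μ ℓ φ hx U c ρ F γ k Λ 𝒰 u τ s hI hL hρ hD _ _ N hN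
    ε w ψ V T O h
  have hW := hD.nk.seq
  have h1 := right_mem_Icc.2 (zero_le_one (α := ℝ))
  obtain ⟨κ, i1, i2, D, Z, G⟩ := exists_gd hC hS hx hI hL hρ
    (wNet m ι X M F _ Λ 𝒰 u τ s hx.inj hD.smF hW).1
    (fun p hp => sb_band (hx.sm c).continuous (hD.nk.bar 1) hp) hN h
  obtain ⟨ζ, z1, z2, z3, z4, -⟩ := exists_cut one_pos one_lt_two
  obtain ⟨θ, t1, -, t2, t3, B, t4⟩ := exists_cut (a := 5 / 2) (b := 3) (by norm_num) (by norm_num)
  have hη := hx.eta c
  have hε := h.pos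
  have l0 : ∀ a : ℝ, Tendsto (fun L : ℝ => a / L) atTop (𝓝 0) := fun a =>
    tendsto_const_nhds.div_atTop tendsto_id
  have l1 : Tendsto (fun L : ℝ => π ^ 2 * (B / L) ^ 2) atTop (𝓝 0) := by
    simpa using ((l0 B).pow 2).const_mul (π ^ 2)
  refine eventually_atTop.1 ?_
  filter_upwards [G.neck hN.x hx.res z1 z2 hx.inj hx.cl hD.smF hW (fun b => (hx.sm b).continuous)
      fun p hp => h.shr2 p (h.sb hp), eventually_gt_atTop 0, (l0 2).eventually (gt_mem_nhds hε),
    (l0 2).eventually (gt_mem_nhds (show 0 < √(η c) / 8 by positivity)),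
    l1.eventually (gt_mem_nhds (lt_min hε (show 0 < η c / 5 by positivity)))] with L H L0 L1 L2 L3
  filter_upwards [H] with j H hu f hf hsh hfu
  have hs := G.smg z1 hu L
  have hj : JC (M.graph (u j) hu).atl univ fun σ q => D (σ * ζ (u j q / L)) q :=
    JC.of_smJ (A := (M.graph (u j) hu).atl) hs isOpen_univ continuous_id fun _ => mem_univ _
  have hz : ∀ σ p, 2 * L ≤ |u j p| → D (σ * ζ (u j p / L)) p = D 0 p := fun σ p hp => by
    rw [z4 _ (by rwa [abs_div, abs_of_pos L0, le_div_iff₀ L0]), mul_zero]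
  have hup : ∀ (χ χ' : C → X → ℝ) p, (∀ b, χ b p = χ' b p) →
      ∀ b, update χ c f b p = update χ' c f b p := fun χ χ' p e b => by
    rw [apply_update (fun _ (g : X → ℝ) => g p), apply_update (fun _ (g : X → ℝ) => g p), funext e]
  have hev : ∀ (χ : C → X → ℝ) p, ev (update χ c f) p = update (ev χ p) c (f p) := fun χ p =>
    funext (apply_update (fun _ (g : X → ℝ) => g p) χ c f)
  have hgr : ∀ {ι' : Type} [Fintype ι'] [DecidableEq ι'] (Γ : Imm (m + 1) ι' X) (χ : C → X → ℝ) p,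
      gr Γ (update χ c f) p = update (gr Γ χ p) c ‖Γ.grad f p‖ := fun Γ χ p =>
    funext (apply_update (fun _ (g : X → ℝ) => ‖Γ.grad g p‖) χ c f)
  refine ⟨κ, i1, i2, fun σ i q => (D (σ * ζ (u j q / L)) q).1 i,
    fun σ => update (fun b q => (D (σ * ζ (u j q / L)) q).2.1 b) c f,
    ⟨fun i => hj.fst.apply i, fun b => ?_, fun i p => ?_, ?_, fun σ hσ => ?_, fun σ hσ b p => ?_,
      fun σ _ p hp => ⟨fun i => congrFun (G.loc _ p hp).1 i,
        hup _ _ p fun b => congrFun (G.loc _ p hp).2 b⟩⟩, fun p hp hc => ?_⟩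
  · by_cases hb : b = c
    · simp only [hb, update_self]
      exact JC.of_sm rfl isOpen_univ hf
    · simp only [update_of_ne hb]
      exact hj.snd.fst.apply b
  · rw [zero_mul, (G.zero p).1, Pi.zero_apply]
  · simp only [zero_mul, (G.zero _).2]
  · have a0 := hs.slice (mem_univ σ)
    refine inD_glue (χ0 := update (ψ 1) c f) (u := u j) (F1 := wF M F w (u j))
      (F2 := fun q => (D (σ * ζ (u j q / L)) q).2.2) (sm1 (M := M.graph (u j) hu) a0) hu (fun p => ?_)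
      t1 t2 t3 t4 L0 ((hD.smF.add (hu.vv.log fun p => (M.vv_pos _ p).ne')).add
        ((Imm.sm_const _).mul (h.smw.log fun p => (h.wpos p).ne'))) (sm3 (M := M) a0) L3
      (fun p hp => ⟨fun i => ?_, hup _ _ p fun b => ?_⟩) (fun p hp => ?_) fun p hp hp' => ?_
    · rw [Imm.graph_pre, Imm.gS_gam_u]
      linarith [sq_nonneg (M.vv (u j) p)]
    · rw [hz σ p hp.le, (G.zero p).1, Pi.zero_apply]
    · rw [hz σ p hp.le, (G.zero p).2]
    · rw [hev, hgr, Imm.graph_pre]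
      refine good_mono (h.gph j hu 1 h1 p hp _ _ fun h' => ⟨shr1_abs (hsh p) h',
        (hfu p h').2.trans L1.le⟩) (by linarith [min_le_left ε (η c / 5)]) (fun _ => le_rfl)
        fun b => ?_
      by_cases hb : b = c
      · rw [hb, update_self, update_self]
        linarith [hL.2.1]
      · rw [update_of_ne hb, update_of_ne hb]
    · rw [hev, hgr]
      exact good_up (good_update (tri_mem.1 ((H σ hσ p hp').1 hp).1) hx.res (sub_nonneg.2 hρ) hη.le
        fun h' => ((xt_grad_le _ _ f p).trans (hfu p h').2).trans_lt L2)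
        (by linarith [min_le_right ε (η c / 5)])
  · by_cases hb : b = c
    · rw [hb, update_self]
      exact hsh p
    rw [update_of_ne hb]
    rcases le_total |u j p| (3 * L) with hp | hp
    · exact (H σ hσ p hp).2 b hb
    · have := h.shr 1 h1 b p
      rw [park, update_of_ne hb] at this
      rwa [hz σ p (by linarith), (G.zero p).2]
  · beta_reduce at hc ⊢
    rw [update_self] at hc
    have a1 := (hfu p hc).1
    rw [hev]
    refine few_update ?_
    change Few m (D (1 * ζ (u j p / L)) p).2.1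
    rw [z3 _ (show |u j p / L| ≤ 1 by rwa [abs_div, abs_of_pos L0, div_le_one L0]), mul_one]
    exact ((H 1 h1 p (by linarith)).1 hp).2

end Crest.Agent.N228.Gr

end
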