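import Crest.Agent.N222.F.Hess
import Crest.Agent.N222.F.Res

/-!
# Row 228, graft: convergence of jets (helper90)

`C1`, `C2` : convergence of the 1-jets (2-jets) of `φ j` at `z j` to the jet of `ψ` at `w`.
`PC` : pointed charts in which a family of immersions converges.  Then `D`, `gam`, `lap`, `scal`,
`EF` converge.
-/

set_option autoImplicit false
set_option linter.unusedSectionVars false
open Set Filter Topology Function Metric
open scoped ContDiff
open Crest.Agent.N222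

noncomputable section

namespace Crest.Agent.N228.Gr

section Jets

variable {α : Type} {l : Filter α} {V F G : Type} [NormedAddCommGroup V] [NormedSpace ℝ V]
  [NormedAddCommGroup F] [NormedSpace ℝ F] [NormedAddCommGroup G] [NormedSpace ℝ G]

/-- convergence of 1-jets -/
structure C1 (l : Filter α) (φ : α → V → F) (z : α → V) (ψ : V → F) (w : V) : Prop where
  sm : ∀ᶠ j in l, ContDiffAt ℝ 1 (φ j) (z j)
  sm' : ContDiffAt ℝ 1 ψ w
  t0 : Tendsto (fun j => φ j (z j)) l (𝓝 (ψ w))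
  t1 : Tendsto (fun j => fderiv ℝ (φ j) (z j)) l (𝓝 (fderiv ℝ ψ w))

/-- convergence of 2-jets -/
structure C2 (l : Filter α) (φ : α → V → F) (z : α → V) (ψ : V → F) (w : V) : Prop where
  c1 : C1 l φ z ψ w
  c2 : C1 l (fun j => fderiv ℝ (φ j)) z (fderiv ℝ ψ) w

variable {φ φ' : α → V → F} {χ : α → V → G} {z : α → V} {ψ ψ' : V → F} {θ : V → G} {w : V}

theorem C1.congr (h : C1 l φ z ψ w) (e : ∀ᶠ j in l, φ' j =ᶠ[𝓝 (z j)] φ j) (e' : ψ' =ᶠ[𝓝 w] ψ) :
    C1 l φ' z ψ' w where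
  sm := (h.sm.and e).mono fun _ hj => hj.1.congr_of_eventuallyEq hj.2
  sm' := h.sm'.congr_of_eventuallyEq e'
  t0 := by
    rw [e'.self_of_nhds]
    exact h.t0.congr' (e.mono fun j hj => hj.self_of_nhds.symm)
  t1 := by
    rw [e'.fderiv_eq]
    exact h.t1.congr' (e.mono fun j hj => hj.fderiv_eq.symm)

theorem C2.congr (h : C2 l φ z ψ w) (e : ∀ᶠ j in l, φ' j =ᶠ[𝓝 (z j)] φ j) (e' : ψ' =ᶠ[𝓝 w] ψ) :
    C2 l φ' z ψ' w :=
  ⟨h.c1.congr e e', h.c2.congr (e.mono fun _ hj => hj.fderiv) e'.fderiv⟩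

theorem C1.prodMk (h : C1 l φ z ψ w) (h' : C1 l χ z θ w) :
    C1 l (fun j y => (φ j y, χ j y)) z (fun y => (ψ y, θ y)) w where
  sm := (h.sm.and h'.sm).mono fun _ hj => hj.1.prodMk hj.2
  sm' := h.sm'.prodMk h'.sm'
  t0 := h.t0.prodMk_nhds h'.t0
  t1 := by
    rw [(h.sm'.differentiableAt one_ne_zero).fderiv_prodMk (h'.sm'.differentiableAt one_ne_zero)]
    refine (((ContinuousLinearMap.prodₗᵢ ℝ).continuous.tendsto _).comp
      (h.t1.prodMk_nhds h'.t1)).congr' ((h.sm.and h'.sm).mono fun j hj => ?_)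
    exact ((hj.1.differentiableAt one_ne_zero).fderiv_prodMk
      (hj.2.differentiableAt one_ne_zero)).symm

theorem C1.comp (h : C1 l φ z ψ w) {Φ : F → G} (hΦ : ContDiffAt ℝ 1 Φ (ψ w)) :
    C1 l (fun j y => Φ (φ j y)) z (fun y => Φ (ψ y)) w := by
  have h1 : ∀ᶠ j in l, ContDiffAt ℝ 1 Φ (φ j (z j)) := h.t0.eventually (hΦ.eventually (by simp))
  refine ⟨(h1.and h.sm).mono fun j hj => hj.1.comp _ hj.2, hΦ.comp _ h.sm',
    hΦ.continuousAt.tendsto.comp h.t0, ?_⟩
  have h2 := ((isBoundedBilinearMap_comp (𝕜 := ℝ) (E := V) (F := F) (G := G)).continuous.tendsto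
    _).comp (((hΦ.fderiv_right (m := 0) (by simp)).continuousAt.tendsto.comp h.t0).prodMk_nhds h.t1)
  rw [fderiv_fun_comp _ (hΦ.differentiableAt one_ne_zero) (h.sm'.differentiableAt one_ne_zero)]
  exact h2.congr' ((h1.and h.sm).mono fun j hj => (fderiv_fun_comp _
    (hj.1.differentiableAt one_ne_zero) (hj.2.differentiableAt one_ne_zero)).symm)

theorem fderiv_comp_ev {Φ : F → G} (hΦ : ContDiffAt ℝ 1 Φ (ψ w)) (h : ContDiffAt ℝ 1 ψ w) :
    (fderiv ℝ fun y => Φ (ψ y)) =ᶠ[𝓝 w] fun y => fderiv ℝ Φ (ψ y) ∘L fderiv ℝ ψ y := by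
  filter_upwards [h.eventually (by simp), h.continuousAt.eventually (hΦ.eventually (by simp))]
    with y h1 h2
  exact fderiv_fun_comp _ (h2.differentiableAt one_ne_zero) (h1.differentiableAt one_ne_zero)

theorem C2.comp (h : C2 l φ z ψ w) {Φ : F → G} (hΦ : ContDiffAt ℝ 2 Φ (ψ w)) :
    C2 l (fun j y => Φ (φ j y)) z (fun y => Φ (ψ y)) w := by
  have h1 : ContDiffAt ℝ 1 Φ (ψ w) := hΦ.of_le (by norm_num)
  refine ⟨h.c1.comp h1, ((h.c1.prodMk h.c2).comp
    (Φ := fun s : F × (V →L[ℝ] F) => fderiv ℝ Φ s.1 ∘L s.2) ?_).congr ?_ (fderiv_comp_ev h1 h.c1.sm')⟩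
  · exact ((hΦ.fderiv_right (m := 1) (by norm_num)).comp (f := Prod.fst) (ψ w, fderiv ℝ ψ w)
      contDiffAt_fst).clm_comp contDiffAt_snd
  · filter_upwards [h.c1.sm, h.c1.t0.eventually (h1.eventually (by simp))] with j a b
    exact fderiv_comp_ev b a

theorem fderiv_prod_ev (h : ContDiffAt ℝ 1 ψ w) (h' : ContDiffAt ℝ 1 θ w) :
    (fderiv ℝ fun y => (ψ y, θ y)) =ᶠ[𝓝 w]
      fun y => ContinuousLinearMap.prodₗᵢ ℝ (fderiv ℝ ψ y, fderiv ℝ θ y) := by
  filter_upwards [h.eventually (by simp), h'.eventually (by simp)] with y h1 h2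
  exact (h1.differentiableAt one_ne_zero).fderiv_prodMk (h2.differentiableAt one_ne_zero)

theorem C2.prodMk (h : C2 l φ z ψ w) (h' : C2 l χ z θ w) :
    C2 l (fun j y => (φ j y, χ j y)) z (fun y => (ψ y, θ y)) w :=
  ⟨h.c1.prodMk h'.c1, ((h.c2.prodMk h'.c2).comp
    (ContinuousLinearMap.prodₗᵢ ℝ).contDiff.contDiffAt).congr
    ((h.c1.sm.and h'.c1.sm).mono fun _ hj => fderiv_prod_ev hj.1 hj.2)
    (fderiv_prod_ev h.c1.sm' h'.c1.sm')⟩

theorem C1.fixed (hψ : ContDiffAt ℝ 1 ψ w) (hz : Tendsto z l (𝓝 w)) : C1 l (fun _ => ψ) z ψ w :=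
  ⟨hz.eventually (hψ.eventually (by simp)), hψ, hψ.continuousAt.tendsto.comp hz,
    (hψ.fderiv_right (m := 0) (by simp)).continuousAt.tendsto.comp hz⟩

theorem C2.fixed (hψ : ContDiffAt ℝ 2 ψ w) (hz : Tendsto z l (𝓝 w)) : C2 l (fun _ => ψ) z ψ w :=
  ⟨C1.fixed (hψ.of_le (by norm_num)) hz, C1.fixed (hψ.fderiv_right (m := 1) (by norm_num)) hz⟩

theorem C1.const {c : α → F} {c0 : F} (hc : Tendsto c l (𝓝 c0)) :
    C1 l (fun j _ => c j) z (fun _ => c0) w :=
  ⟨.of_forall fun _ => contDiffAt_const, contDiffAt_const, hc, by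
    simpa using tendsto_const_nhds⟩

theorem C2.const {c : α → F} {c0 : F} (hc : Tendsto c l (𝓝 c0)) :
    C2 l (fun j _ => c j) z (fun _ => c0) w :=
  ⟨C1.const hc, (C1.const (c := fun _ => (0 : V →L[ℝ] F)) tendsto_const_nhds).congr
    (.of_forall fun _ => .of_forall fun _ => by simp) (.of_forall fun _ => by simp)⟩

theorem C2.add (h : C2 l φ z ψ w) (h' : C2 l φ' z ψ' w) :
    C2 l (fun j y => φ j y + φ' j y) z (fun y => ψ y + ψ' y) w :=
  (h.prodMk h').comp (Φ := fun s : F × F => s.1 + s.2) (by fun_prop)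

theorem C2.smul {u : α → V → ℝ} {v : V → ℝ} (h : C2 l u z v w) (h' : C2 l φ z ψ w) :
    C2 l (fun j y => u j y • φ j y) z (fun y => v y • ψ y) w :=
  (h.prodMk h').comp (Φ := fun s : ℝ × F => s.1 • s.2) (by fun_prop)

theorem C2.sum {κ : Type} (s : Finset κ) {φ : κ → α → V → F} {ψ : κ → V → F}
    (h : ∀ i ∈ s, C2 l (φ i) z (ψ i) w) :
    C2 l (fun j y => ∑ i ∈ s, φ i j y) z (fun y => ∑ i ∈ s, ψ i y) w := by
  classical
  induction s using Finset.induction_on with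
  | empty => simpa using C2.const (c := fun _ => (0 : F)) tendsto_const_nhds
  | insert a s ha ih =>
    simp only [Finset.sum_insert ha]
    exact (h a (Finset.mem_insert_self _ _)).add (ih fun i hi => h i (Finset.mem_insert_of_mem hi))

/-- uniform convergence of the jets on an open set -/
theorem C2.of_unif {U : Set V} (hU : IsOpen U) (hw : w ∈ U) (hz : Tendsto z l (𝓝 w))
    (hφ : ∀ᶠ j in l, ContDiffOn ℝ ∞ (φ j) U) (hψ : ContDiffAt ℝ ∞ ψ w)
    (h : ∀ k ≤ 2, TendstoUniformlyOn (fun j => iteratedFDeriv ℝ k (φ j)) (iteratedFDeriv ℝ k ψ) l U) :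
    C2 l φ z ψ w := by
  have hzU : ∀ᶠ j in l, z j ∈ U := hz.eventually (hU.mem_nhds hw)
  have H : ∀ k ≤ 2, Tendsto (fun j => iteratedFDeriv ℝ k (φ j) (z j)) l
      (𝓝 (iteratedFDeriv ℝ k ψ w)) := fun k hk =>
    (h k hk).tendsto_comp ((hψ.iteratedFDeriv_right (m := 0) (i := k)
      (by rw [zero_add]; exact_mod_cast le_top)).continuousAt.continuousWithinAt)
      (tendsto_nhdsWithin_iff.2 ⟨hz, hzU⟩)
  have s1 : ∀ᶠ j in l, ContDiffAt ℝ ∞ (φ j) (z j) :=
    (hφ.and hzU).mono fun j hj => hj.1.contDiffAt (hU.mem_nhds hj.2)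
  have t1 : Tendsto (fun j => fderiv ℝ (φ j) (z j)) l (𝓝 (fderiv ℝ ψ w)) := by
    have := ((continuousMultilinearCurryFin1 ℝ V F).continuous.tendsto _).comp (H 1 (by norm_num))
    have e : ∀ (f : V → F) y, continuousMultilinearCurryFin1 ℝ V F (iteratedFDeriv ℝ 1 f y) =
        fderiv ℝ f y := fun f y => by ext v; simp
    simpa only [comp_def, e] using this
  refine ⟨⟨s1.mono fun _ hj => hj.of_le (by simp), hψ.of_le (by simp), ?_, t1⟩,
    s1.mono fun _ hj => hj.fderiv_right (by norm_cast), hψ.fderiv_right (by norm_cast), t1, ?_⟩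
  · have := ((continuousMultilinearCurryFin0 ℝ V F).continuous.tendsto _).comp (H 0 (by norm_num))
    simpa [comp_def] using this
  · have := ((continuousMultilinearCurryFin1 ℝ V (V →L[ℝ] F)).continuous.tendsto _).comp
      (((continuousMultilinearCurryRightEquiv' ℝ 1 V F).continuous.tendsto _).comp (H 2 le_rfl))
    have e : ∀ (f : V → F) y, continuousMultilinearCurryFin1 ℝ V (V →L[ℝ] F)
        (continuousMultilinearCurryRightEquiv' ℝ 1 V F (iteratedFDeriv ℝ 2 f y)) =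
        fderiv ℝ (fderiv ℝ f) y := fun f y => by
      ext v v'; simp [iteratedFDeriv_two_apply]
    simpa only [comp_def, e] using this

/-- slowly varying functions of one coordinate -/
theorem C2.slow {η : α → ℝ → ℝ} (T : V →L[ℝ] ℝ) {t : α → ℝ} {c : ℝ} (hη : ∀ j, ContDiff ℝ ∞ (η j))
    (h0 : Tendsto (fun j => η j (t j + T (z j))) l (𝓝 c))
    (h1 : Tendsto (fun j => deriv (η j) (t j + T (z j))) l (𝓝 0))
    (h2 : Tendsto (fun j => deriv (deriv (η j)) (t j + T (z j))) l (𝓝 0)) :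
    C2 l (fun j y => η j (t j + T y)) z (fun _ => c) w := by
  have hd : ∀ {η : ℝ → ℝ}, ContDiff ℝ ∞ η → ∀ t y,
      HasFDerivAt (fun y => η (t + T y)) (deriv η (t + T y) • T) y := fun hη t y =>
    (hη.differentiable (by simp) _).hasDerivAt.comp_hasFDerivAt y (T.hasFDerivAt.const_add t)
  have A : ∀ {η : α → ℝ → ℝ} {c : ℝ}, (∀ j, ContDiff ℝ ∞ (η j)) →
      Tendsto (fun j => η j (t j + T (z j))) l (𝓝 c) →
      Tendsto (fun j => deriv (η j) (t j + T (z j))) l (𝓝 0) →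
      C1 l (fun j y => η j (t j + T y)) z (fun _ => c) w := fun hη h0 h1 =>
    ⟨.of_forall fun j => (((hη j).of_le (by simp)).comp
      (contDiff_const.add T.contDiff)).contDiffAt, contDiffAt_const, h0, by
      simp only [(hd (hη _) _ _).fderiv]
      simpa using h1.smul_const T⟩
  refine ⟨A hη h0 h1, ((A (fun j => (hη j).deriv') h1 h2).comp (Φ := fun s : ℝ => s • T)
    (by fun_prop)).congr (.of_forall fun j => .of_forall fun y => (hd (hη j) _ _).fderiv)
    (.of_forall fun _ => by simp)⟩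

end Jets

/-! ### pointed charts -/

variable {α : Type} {l : Filter α} {d : ℕ} {κ : Type} [Fintype κ] {X Z : Type}
  [TopologicalSpace X] [TopologicalSpace Z]

/-- pointed charts in which the immersions converge in `C²` -/
structure PC (l : Filter α) (G : α → Imm d κ X) (e : α → OpenPartialHomeomorph X (E (Fin d)))
    (p : α → X) (G0 : Imm d κ Z) (e0 : OpenPartialHomeomorph Z (E (Fin d))) (p0 : Z) : Prop where
  ch : ∀ᶠ j in l, IsChart (G j).x (e j) ∧ p j ∈ (e j).source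
  ch0 : IsChart G0.x e0
  mem0 : p0 ∈ e0.source
  x : C2 l (fun j => (G j).x ∘ (e j).symm) (fun j => e j (p j)) (G0.x ∘ e0.symm) (e0 p0)

/-- functions whose 1-jets converge in the charts -/
abbrev F1 {F : Type} [NormedAddCommGroup F] [NormedSpace ℝ F] (l : Filter α)
    (e : α → OpenPartialHomeomorph X (E (Fin d))) (p : α → X)
    (e0 : OpenPartialHomeomorph Z (E (Fin d))) (p0 : Z) (f : α → X → F) (f0 : Z → F) : Prop :=
  C1 l (fun j => f j ∘ (e j).symm) (fun j => e j (p j)) (f0 ∘ e0.symm) (e0 p0)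

/-- functions whose 2-jets converge in the charts -/
abbrev F2 {F : Type} [NormedAddCommGroup F] [NormedSpace ℝ F] (l : Filter α)
    (e : α → OpenPartialHomeomorph X (E (Fin d))) (p : α → X)
    (e0 : OpenPartialHomeomorph Z (E (Fin d))) (p0 : Z) (f : α → X → F) (f0 : Z → F) : Prop :=
  C2 l (fun j => f j ∘ (e j).symm) (fun j => e j (p j)) (f0 ∘ e0.symm) (e0 p0)

variable [DecidableEq κ]

/-- `D` on jets -/
def DJ (b : κ) (s : (E (Fin d) →L[ℝ] E κ) × (E (Fin d) →L[ℝ] ℝ)) : ℝ :=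
  s.2 (ContinuousLinearMap.adjoint (Lam s.1) (ee b))

theorem contDiffAt_DJ (b : κ) {s : (E (Fin d) →L[ℝ] E κ) × (E (Fin d) →L[ℝ] ℝ)}
    (hJ : Injective s.1) : ContDiffAt ℝ ∞ (DJ b) s :=
  contDiffAt_snd.clm_apply ((((contDiff_adjoint (κ := Fin d) (ι := κ)).contDiffAt.comp _
    (contDiffAt_Lam hJ)).comp s contDiffAt_fst).clm_apply contDiffAt_const)

theorem D_chart {G : Imm d κ X} {e : OpenPartialHomeomorph X (E (Fin d))} (he : IsChart G.x e)
    {p : X} (hp : p ∈ e.source) (b : κ) (f : X → ℝ) :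
    G.pre.D b f p = DJ b (fderiv ℝ (G.x ∘ e.symm) (e p), fderiv ℝ (f ∘ e.symm) (e p)) := by
  change G.td f p (ee b) = _
  rw [Imm.td_chart f he hp]
  rfl

theorem D_chart_ev {G : Imm d κ X} {e : OpenPartialHomeomorph X (E (Fin d))} (he : IsChart G.x e)
    {p : X} (hp : p ∈ e.source) (b : κ) (f : X → ℝ) : G.pre.D b f ∘ e.symm =ᶠ[𝓝 (e p)]
      fun y => DJ b (fderiv ℝ (G.x ∘ e.symm) y, fderiv ℝ (f ∘ e.symm) y) := by
  filter_upwards [e.open_target.mem_nhds (e.map_source hp)] with y hy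
  rw [comp_apply, D_chart he (e.map_target hy), e.right_inv hy]

namespace PC

variable {G : α → Imm d κ X} {e : α → OpenPartialHomeomorph X (E (Fin d))} {p : α → X}
  {G0 : Imm d κ Z} {e0 : OpenPartialHomeomorph Z (E (Fin d))} {p0 : Z}
  (h : PC l G e p G0 e0 p0) {f g : α → X → ℝ} {f0 g0 : Z → ℝ}

include h

theorem val {F : Type} [NormedAddCommGroup F] [NormedSpace ℝ F] {f : α → X → F} {f0 : Z → F}
    (hf : F1 l e p e0 p0 f f0) : Tendsto (fun j => f j (p j)) l (𝓝 (f0 p0)) := by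
  have := hf.t0
  simp only [comp_apply, e0.left_inv h.mem0] at this
  exact this.congr' (h.ch.mono fun j hj => by simp only [(e j).left_inv hj.2])

theorem D (hf : F1 l e p e0 p0 f f0) (b : κ) :
    Tendsto (fun j => (G j).pre.D b (f j) (p j)) l (𝓝 (G0.pre.D b f0 p0)) := by
  rw [D_chart h.ch0 h.mem0]
  exact ((contDiffAt_DJ b (h.ch0.inj _ (e0.map_source h.mem0))).continuousAt.tendsto.comp
    (h.x.c1.t1.prodMk_nhds hf.t1)).congr' (h.ch.mono fun j hj => (D_chart hj.1 hj.2 b _).symm)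

theorem D1 (hf : F2 l e p e0 p0 f f0) (b : κ) :
    F1 l e p e0 p0 (fun j => (G j).pre.D b (f j)) (G0.pre.D b f0) :=
  ((h.x.c2.prodMk hf.c2).comp
    ((contDiffAt_DJ b (h.ch0.inj _ (e0.map_source h.mem0))).of_le (by simp))).congr
    (h.ch.mono fun _ hj => D_chart_ev hj.1 hj.2 b _) (D_chart_ev h.ch0 h.mem0 b _)

theorem gam (hf : F1 l e p e0 p0 f f0) (hg : F1 l e p e0 p0 g g0) :
    Tendsto (fun j => (G j).pre.gam (f j) (g j) (p j)) l (𝓝 (G0.pre.gam f0 g0 p0)) := by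
  simp only [Imm.gam_apply]
  exact tendsto_finsetSum _ fun a _ => (h.D hf a).mul (h.D hg a)

theorem lap (hf : F2 l e p e0 p0 f f0) :
    Tendsto (fun j => (G j).pre.lap (f j) (p j)) l (𝓝 (G0.pre.lap f0 p0)) := by
  simp only [Imm.lap_apply]
  exact tendsto_finsetSum _ fun a _ => h.D (h.D1 hf a) a

theorem DP (a b c : κ) : Tendsto (fun j => (G j).pre.D a ((G j).pre.P b c) (p j)) l
    (𝓝 (G0.pre.D a (G0.pre.P b c) p0)) :=
  h.D (h.D1 (f := fun j => (G j).pre.x c) (f0 := G0.pre.x c)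
    (h.x.comp (Φ := fun y : E κ => y c) (by fun_prop)) b) a

theorem scal : Tendsto (fun j => (G j).pre.scal (p j)) l (𝓝 (G0.pre.scal p0)) := by
  have H : Tendsto (fun j => 2 * (G j).pre.scal (p j)) l (𝓝 (2 * G0.pre.scal p0)) := by
    simp only [Imm.scal_DP]
    have := h.DP
    refine Tendsto.sub (Tendsto.const_mul _ (tendsto_finsetSum _ fun c _ => ?_))
      (tendsto_finsetSum _ fun a _ => tendsto_finsetSum _ fun b _ =>
        tendsto_finsetSum _ fun c _ => ?_)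
    · exact (tendsto_finsetSum _ fun a _ => this a a c).mul
        (tendsto_finsetSum _ fun a _ => this a a c)
    · exact (this a b c).mul (this a b c)
  have := H.div_const 2
  simpa using this

theorem EF (hf : F2 l e p e0 p0 f f0) :
    Tendsto (fun j => (G j).pre.EF (f j) (p j)) l (𝓝 (G0.pre.EF f0 p0)) := by
  simp only [Imm.EF_apply]
  exact (h.scal.sub ((h.lap hf).const_mul 2)).sub (h.gam hf.c1 hf.c1)

end PC

end Crest.Agent.N228.Gr

end
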