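import Crest.Agent.N228.Gr.Dat

/-!
# Row 228, graft: the grafted family is in the class on the neck (helper90)
-/

set_option autoImplicit false
set_option linter.unusedSectionVars false
open Set Filter Topology Function Real
open scoped ContDiff
open Crest.Agent.N222 Crest.Agent.N222.A Crest.Agent.N228.G
open Crest.Agent.N228.J (JC)

noncomputable section

namespace Crest.Agent.N228.Gr

variable {m : ℕ} {ι C κ : Type} [Fintype ι] [DecidableEq ι] [Fintype C] [DecidableEq C]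
  [Fintype κ] [DecidableEq κ]
  {X : Type} [TopologicalSpace X] [T2Space X] [SecondCountableTopology X] [MeasurableSpace X]
  [BorelSpace X] [CompactSpace X] {M : Imm (m + 1) ι X} {A U : Set X} {η r : C → ℝ} {μ : ℝ}
  {ψ : C → X → ℝ} {𝒰 : Ultrafilter ℕ} {u : ℕ → X → ℝ} {N : Imm m ι (M.Sig 𝒰 u)}
  {D : ℝ → X → DW κ C} {Z : Set (M.Sig 𝒰 u)} {ζ : ℝ → ℝ}

theorem mul_mem_Icc {a b : ℝ} (ha : a ∈ Icc (0 : ℝ) 1) (hb : b ∈ Icc (0 : ℝ) 1) :
    a * b ∈ Icc (0 : ℝ) 1 := ⟨mul_nonneg ha.1 hb.1, mul_le_one₀ ha.2 hb.1 hb.2⟩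

/-- slowly varying families on the cylinder -/
theorem GD.model (h : GD M A U η r μ ψ 𝒰 u N D Z) (hN : ∀ q, N.x q = M.x q) (hr : ∀ b, 0 ≤ r b)
    (hζ : ContDiff ℝ ∞ ζ) (h01 : ∀ t, ζ t ∈ Icc (0 : ℝ) 1) :
    ∀ᶠ ε in 𝓝 (0 : ℝ), ∀ z ∈ Icc (0 : ℝ) 1 ×ˢ Icc (-3 : ℝ) 3 ×ˢ Z,
      tri (cyl N) (fun s => D (z.1 * ζ (z.2.1 + ε * s.2)) s.1) (z.2.2, 0) ∈ GS m η r μ := by
  have hl : ∀ q, Loc N M Subtype.val q := Loc.of_cont continuous_subtype_val hN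
  have h1 : SmJ M.ch univ fun θ : (ℝ × ℝ × ℝ) × ℝ => D (θ.1.2.1 * ζ (θ.1.2.2 + θ.1.1 * θ.2)) :=
    h.sm.reparam (ContDiff.contDiffOn (by fun_prop)) (mapsTo_univ _ _)
  have h2 := tri_cont (M := cyl N) (JC.of_smJ (A := (cyl N).atl) (smJ_cyl (smJ_res hl h1))
    isOpen_univ continuous_id fun _ => mem_univ _)
  have h3 := h2.comp (f := fun w : ℝ × ℝ × ℝ × M.Sig 𝒰 u => ((w.1, w.2.1, w.2.2.1), (w.2.2.2, (0 : ℝ))))
    (by fun_prop)
  refine (isCompact_Icc.prod (isCompact_Icc.prod h.cpt)).eventually_forall_of_forall_eventually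
    fun z hz => h3.continuousAt.eventually ((isOpen_GS hr μ).mem_nhds ?_)
  have h4 := tri_cyl (D := fun q : M.Sig 𝒰 u => D (z.1 * ζ z.2.1) q)
    (Imm.Sm.res (h.sm.slice (mem_univ _)) hl) (z.2.2, 0)
  simp only [comp_apply, id, zero_mul, add_zero]
  rw [h4]
  exact h.good _ (mul_mem_Icc hz.1 (h01 _)) _ hz.2.2

theorem GD.smg (h : GD M A U η r μ ψ 𝒰 u N D Z) (hζ : ContDiff ℝ ∞ ζ) {v : X → ℝ} (hv : M.Sm v)
    (L : ℝ) : SmJ M.ch univ fun σ q => D (σ * ζ (v q / L)) q :=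
  smJ_subst h.sm ((SmJ.param contDiffOn_id).mul (((SmJ.of_smA hv).div_const L).comp hζ))

/-- **the neck** -/
theorem GD.neck (h : GD M A U η r μ ψ 𝒰 u N D Z) (hN : ∀ q, N.x q = M.x q) (hr : ∀ b, 0 ≤ r b)
    (hζ : ContDiff ℝ ∞ ζ) (h01 : ∀ t, ζ t ∈ Icc (0 : ℝ) 1) (hM : Injective M.x) (hA : IsClosed A)
    {F k : X → ℝ} {Λ : ℝ} {τ s : ℕ → ℝ} (hF : M.Sm F) (hW : WSeq M F k Λ 𝒰 u τ s)
    {φ : C → X → ℝ} (hφ : ∀ b, Continuous (φ b)) {c : C}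
    (hs : ∀ p ∈ Sb 𝒰 u, ∀ b, b ≠ c → Shr2 (φ b p) (ψ b p)) :
    ∀ᶠ L in atTop, ∀ᶠ j in (𝒰 : Filter ℕ), ∀ σ ∈ Icc (0 : ℝ) 1, ∀ q, |u j q| ≤ 3 * L →
      (q ∈ A → tri (M.graph (u j) (hW.adm j).sm) (fun q => D (σ * ζ (u j q / L)) q) q ∈ GS m η r μ ∧
        Few m (D 1 q).2.1) ∧ ∀ b, b ≠ c → Shr1 (φ b q) ((D (σ * ζ (u j q / L)) q).2.1 b) := by
  have hl : ∀ q, Loc N M Subtype.val q := Loc.of_cont continuous_subtype_val hN
  filter_upwards [tendsto_inv_atTop_zero.eventually (h.model hN hr hζ h01), eventually_gt_atTop 0]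
    with L hL hL0
  refine (neck_ev (wCyl m ι X M F k Λ 𝒰 u τ s hM hF hW).2 isCompact_univ isCompact_Icc (3 * L)
    (R := fun j σ q => (q ∈ A → tri (M.graph (u j) (hW.adm j).sm)
      (fun q => D (σ * ζ (u j q / L)) q) q ∈ GS m η r μ ∧ Few m (D 1 q).2.1) ∧
      ∀ b, b ≠ c → Shr1 (φ b q) ((D (σ * ζ (u j q / L)) q).2.1 b))
    fun σ q σ0 p t h0 _ hp ht l1 l2 l3 => ?_).mono fun j hj σ hσ q hq => hj σ hσ q (mem_univ _) hq
  have hc := h.sm.continuous M.mem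
  have hs0 := mul_mem_Icc h0 (h01 (t / L))
  have l4 : Tendsto (fun j => (D (σ j * ζ (u j (q j) / L)) (q j)).2.1) 𝒰
      (𝓝 (D (σ0 * ζ (t / L)) p).2.1) :=
    ((hc.tendsto (_, p)).comp ((l1.mul ((hζ.continuous.tendsto _).comp (l3.div_const L))).prodMk_nhds
      l2)).snd_nhds.fst_nhds
  have l5 : Tendsto (fun j => (D 1 (q j)).2.1) 𝒰 (𝓝 (D 1 p).2.1) :=
    ((hc.tendsto (1, p)).comp (tendsto_const_nhds.prodMk_nhds l2)).snd_nhds.fst_nhds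
  refine Eventually.and ?_ (eventually_all.2 fun b => eventually_imp_distrib_left.2 fun hb =>
    shr1_ev (hs p hp b hb) (h.shr _ hs0 p hp b) (((hφ b).tendsto p).comp l2)
      (tendsto_pi_nhds.1 l4 b))
  by_cases hA' : p ∈ A
  swap
  · exact (l2.eventually (hA.isOpen_compl.mem_nhds hA')).mono fun j hj h' => (hj h').elim
  refine Eventually.mono ?_ fun j hj _ => hj
  rcases h.few p hp hA' with ⟨p, hZ, rfl⟩ | hf
  swap
  · exact ((few_ev l4 (few_of_subset hf (fin_subset (h.shr _ hs0 p hp)))).mono fun j => Or.inl).and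
      (few_ev l5 (few_of_subset hf (fin_subset (h.shr _ (right_mem_Icc.2 zero_le_one) p hp))))
  refine Eventually.and ?_ (few_ev l5 (h.one p hZ))
  obtain ⟨e, ρ, ch, B⟩ := wBox m ι X M F k Λ 𝒰 u τ s hM hF hW p hp t
    (wAllHt m ι X M F k Λ 𝒰 u τ s hM hF hW p p.2 t)
  obtain ⟨e', he', hpe, hch, H⟩ :=
    neck_charts hM hN (wNet m ι X M F k Λ 𝒰 u τ s hM hF hW).1 B l2 l3
  have P : PC 𝒰 (fun j => amap (M.graph (u j) (hW.adm j).sm) LinearIsometry.id (up (-t) 0)) ch q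
      (cyl N) (prodChart e') (p, 0) :=
    ⟨hch.mono fun j hj => ⟨isChart_iso _ _ (Imm.isChart_graph (hW.adm j).sm hj.1), hj.2⟩,
      isChart_prod he', hpe, (H ℝ _ (fun θ q => up θ.2 (M.x q)) σ σ0
        (((SmJ.param contDiffOn_snd).prodMk (SmJ.of_smA M.sm_x)).comp contDiff_up) l1).congr
        (.of_forall fun j => .of_forall fun _ => (up_add _ _ _ _).trans (by rw [add_zero]; rfl))
        (.of_forall fun _ => congrArg (up _) (hN _))⟩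
  have h1 : SmJ M.ch univ fun θ : ℝ × ℝ => D (θ.1 * ζ (t / L + L⁻¹ * θ.2)) :=
    h.sm.reparam (ContDiff.contDiffOn (by fun_prop)) (mapsTo_univ _ _)
  have h2 := H ℝ _ _ σ σ0 h1 l1
  have h3 : ∀ a : ℝ, t / L + L⁻¹ * (a - t) = a / L := fun a => by ring
  simp only [h3] at h2
  have h4 := fun j => (h.smg hζ (hW.adm j).sm L).slice (mem_univ (σ j))
  have h5 := tri_lim P h4 ((smJ_cyl (smJ_res hl h1)).slice (mem_univ σ0)) h2
  have h6 := hL (σ0, t / L, p) ⟨h0, abs_le.1 (by rwa [abs_div, abs_of_pos hL0, div_le_iff₀ hL0]), hZ⟩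
  refine (h5.eventually ((isOpen_GS hr μ).mem_nhds h6)).mono fun j hj => ?_
  rwa [tri_li (li_amap (M.graph (u j) (hW.adm j).sm) LinearIsometry.id (up (-t) 0) (q j))
    (h4 j) (h4 j) (.of_forall fun _ => rfl)]

end Crest.Agent.N228.Gr

end
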