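import Crest.Agent.N228.Gr.Jet
import Crest.Agent.N228.Gr.Iso
import Crest.Agent.N228.W.Amb
import Crest.Agent.N222.A.SmJ

/-!
# Row 228, graft: jets of jointly smooth families on the neck (helper90)
-/

set_option autoImplicit false
set_option linter.unusedSectionVars false
open MeasureTheory Set Filter Topology Function Metric
open scoped ContDiff
open Crest.Agent.N222 Crest.Agent.N222.A

noncomputable section

namespace Crest.Agent.N228.Gr

variable {d m : ℕ} {ι κ : Type} [Fintype ι] [Fintype κ] {X Y : Type} [TopologicalSpace X]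
  [TopologicalSpace Y] {P W : Type} [NormedAddCommGroup P] [NormedSpace ℝ P]
  [NormedAddCommGroup W] [NormedSpace ℝ W]

/-- additional coordinates keep the charts -/
theorem isChart_of_proj {x : X → E ι} {x' : X → E κ} {e : OpenPartialHomeomorph X (E (Fin d))}
    (he : IsChart x e) (hs : ContDiffOn ℝ ∞ (x' ∘ e.symm) e.target) (π : E κ →L[ℝ] E ι)
    (h : ∀ p, π (x' p) = x p) : IsChart x' e := by
  refine ⟨hs, fun z hz => ?_⟩
  have h2 : DifferentiableAt ℝ (x' ∘ e.symm) z :=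
    (hs.contDiffAt (e.open_target.mem_nhds hz)).differentiableAt (by simp)
  have h3 := (π.hasFDerivAt.comp z h2.hasFDerivAt).fderiv
  have h4 : π ∘ (x' ∘ e.symm) = x ∘ e.symm := funext fun y => h _
  have h5 := he.inj z hz
  rw [← h4, h3] at h5
  exact Injective.of_comp h5

/-- an immersion with additional coordinates -/
def lift (M : Imm d ι X) (x' : X → E κ) (hs : M.Sm x') (π : E κ →L[ℝ] E ι)
    (h : ∀ p, π (x' p) = M.x p) : Imm d κ X :=
  ⟨x', M.ch, M.mem, fun p => isChart_of_proj (M.isChart p) (hs p) π h⟩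

/-- substitution of a smooth function for the parameter -/
theorem smJ_subst {Λ : Type} [NormedAddCommGroup Λ] [NormedSpace ℝ Λ]
    {ch : X → OpenPartialHomeomorph X (E (Fin d))} {Φ : P → X → W} (hΦ : SmJ ch univ Φ)
    {a : Λ → X → P} (ha : SmJ ch univ a) : SmJ ch univ fun ξ p => Φ (a ξ p) p := fun p =>
  (hΦ p).comp (contDiffOn_fst.prodMk (ha p)) fun _ hq => ⟨hq.1, mem_univ _⟩

theorem sm_subst {M : Imm d ι X} {Φ : P → X → W} (hΦ : SmJ M.ch univ Φ) {a : X → P}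
    (ha : M.Sm a) : M.Sm fun p => Φ (a p) p :=
  (smJ_subst hΦ (SmJ.of_smA (Λ := ℝ) ha)).slice (mem_univ 0)

/-- jointly smooth at the points of `U` -/
theorem smJ_at {N : Imm m ι Y} {M : Imm d ι X} {j : Y → X} {q : Y} (h : Loc N M j q)
    {Φ : P → X → W} (hΦ : SmJ M.ch univ Φ) (ξ : P) :
    ContDiffAt ℝ ∞ (fun r : E (Fin m) × P => Φ r.2 (j ((N.ch q).symm r.1))) (N.ch q q, ξ) := by
  have h1 : ContDiffAt ℝ ∞ (fun r : E (Fin d) × P => Φ r.2 ((M.ch (j q)).symm r.1))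
      ((M.ch (j q) ∘ j ∘ (N.ch q).symm) (N.ch q q), ξ) := by
    rw [Loc.j_apply]
    exact (hΦ (j q)).contDiffAt (((M.ch _).open_target.prod isOpen_univ).mem_nhds
      ⟨(M.ch _).map_source (M.mem _), mem_univ _⟩)
  refine (h1.comp (f := fun r : E (Fin m) × P => ((M.ch (j q) ∘ j ∘ (N.ch q).symm) r.1, r.2))
    (N.ch q q, ξ) ((h.smooth_j.comp (f := Prod.fst) (N.ch q q, ξ) contDiffAt_fst).prodMk
      contDiffAt_snd)).congr_of_eventuallyEq ?_
  filter_upwards [(continuousAt_fst (p := (N.ch q q, ξ))).eventually (h.chart_eq id)] with r hr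
  exact congrArg (Φ r.2) hr

/-- restriction to a submanifold -/
theorem smJ_res {N : Imm m ι Y} {M : Imm d ι X} {j : Y → X} (h : ∀ q, Loc N M j q)
    {Φ : P → X → W} (hΦ : SmJ M.ch univ Φ) : SmJ N.ch univ fun ξ q => Φ ξ (j q) :=
  SmJ.of_charts fun q ξ _ => ⟨N.ch q, N.isChart q, N.mem q, smJ_at (h q) hΦ ξ⟩

/-- families on the cylinder -/
theorem smJ_cyl {N : Imm m ι Y} {Φ : P × ℝ → Y → W} (hΦ : SmJ N.ch univ Φ) :
    SmJ (cyl N).ch univ fun σ r => Φ (σ, r.2) r.1 := fun r =>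
  (hΦ r.1).comp (f := fun s : E (Fin (m + 1)) × P => (tail0 s.1, s.2, s.1 0))
    ((contDiff_tail0.comp contDiff_fst).prodMk (contDiff_snd.prodMk (by fun_prop))).contDiffOn
    fun _ hq => ⟨hq.1, mem_univ _⟩

/-- jets of a jointly smooth family in a fixed chart -/
theorem f2_smJ {α : Type} {l : Filter α} {M : Imm d ι X} {e : OpenPartialHomeomorph X (E (Fin d))}
    (he : IsChart M.x e) {p : α → X} {p0 : X} (hp0 : p0 ∈ e.source) (hp : Tendsto p l (𝓝 p0))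
    {Φ : P → X → W} (hΦ : SmJ M.ch univ Φ) {σ : α → P} {σ0 : P} (hσ : Tendsto σ l (𝓝 σ0)) :
    F2 l (fun _ => e) p e p0 (fun j => Φ (σ j)) (Φ σ0) :=
  ((C2.fixed (ψ := id) contDiffAt_id ((e.continuousAt hp0).tendsto.comp hp)).prodMk
    (C2.const hσ)).comp (Φ := fun r : E (Fin d) × P => Φ r.2 (e.symm r.1))
    (((hΦ.chart isOpen_univ he).contDiffAt ((e.open_target.prod isOpen_univ).mem_nhds
      ⟨e.map_source hp0, mem_univ _⟩)).of_le (by norm_cast))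

variable [DecidableEq ι] [T2Space X] [CompactSpace X] [MeasurableSpace X] {M : Imm (m + 1) ι X}
  {𝒰 : Ultrafilter ℕ} {u : ℕ → X → ℝ}

/-- the charts at a sequence of points of the neck -/
theorem neck_charts (hM : Injective M.x) {N : Imm m ι (M.Sig 𝒰 u)} (hN : ∀ q, N.x q = M.x q)
    (hB : IsClosed (M.Bad 𝒰 u)) {p : M.Sig 𝒰 u} {t ρ : ℝ}
    {e : OpenPartialHomeomorph X (E (Fin (m + 1)))}
    {c : ℕ → OpenPartialHomeomorph X (E (Fin (m + 1)))} (B : Box M 𝒰 u p t e ρ c) {q : ℕ → X}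
    (hq : Tendsto q 𝒰 (𝓝 p)) (ht : Tendsto (fun j => u j (q j)) 𝒰 (𝓝 t)) :
    ∃ e' : OpenPartialHomeomorph (M.Sig 𝒰 u) (E (Fin m)), IsChart N.x e' ∧ p ∈ e'.source ∧
      (∀ᶠ j in (𝒰 : Filter ℕ), IsChart M.x (c j) ∧ q j ∈ (c j).source) ∧
      ∀ (P W : Type) [NormedAddCommGroup P] [NormedSpace ℝ P] [NormedAddCommGroup W]
        [NormedSpace ℝ W] (Φ : P × ℝ → X → W) (σ : ℕ → P) (σ0 : P), SmJ M.ch univ Φ →
        Tendsto σ 𝒰 (𝓝 σ0) → F2 𝒰 c q (prodChart e') (p, 0)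
          (fun j q => Φ (σ j, u j q - t) q) fun r => Φ (σ0, r.2) r.1 := by
  obtain ⟨e', he', h1, h2, h3, h4⟩ := exists_sliceChart (S := M.Sig 𝒰 u)
    (B.ch.restr hB.isOpen_compl) (fun q hq => ⟨fun h => (B.slice q hq.1).1 h.1,
      fun h => ⟨(B.slice q hq.1).2 h, hq.2⟩⟩) p
  rw [← funext hN] at he'
  have hpe : p ∈ e'.source := h1 ▸ ⟨B.mem, p.2.2⟩
  obtain ⟨N0, hN0, δ, hδ, hcov⟩ := B.cover
  have hc : ∀ᶠ j in (𝒰 : Filter ℕ), q j ∈ (c j).source ∧ ‖c j (q j)‖ < ρ / 2 := by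
    filter_upwards [hcov, hq hN0, Metric.tendsto_nhds.1 ht δ hδ] with j a1 a2 a3
    exact a1 _ a2 a3
  have hρ := B.pos
  have hπ : ∀ z : E (Fin (m + 1)), z - z 0 • ee 0 = cons0 0 (tail0 z) := fun z => by
    ext i; refine Fin.cases ?_ (fun i => ?_) i <;> simp [ee, cons0, tail0, Fin.tail]
  have cπ : ContDiff ℝ ∞ fun z : E (Fin (m + 1)) => z - z 0 • ee 0 := by fun_prop
  have hsub : ∀ z ∈ ball (0 : E (Fin (m + 1))) ρ, z - z 0 • ee 0 ∈ e.target := fun z hz => by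
    refine B.sub (mem_closedBall_zero_iff.2 (le_trans ?_ (mem_ball_zero_iff.1 hz).le))
    have := Lm.norm_rep_zero_le z
    rwa [Lm.rep, zero_sub, neg_smul, ← sub_eq_add_neg] at this
  have hψ : ∀ z ∈ ball (0 : E (Fin (m + 1))) ρ,
      ContDiffAt ℝ ∞ (fun z : E (Fin (m + 1)) => M.x (e.symm (z - z 0 • ee 0))) z := fun z hz =>
    ContDiffAt.comp (g := M.x ∘ e.symm) z (B.ch.contDiffAt (hsub z hz)) cπ.contDiffAt
  have hz : Tendsto (fun j => c j (q j)) 𝒰 (𝓝 0) := by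
    obtain ⟨w, hw, hl⟩ := (isCompact_closedBall (0 : E (Fin (m + 1))) (ρ / 2)).ultrafilter_le_nhds
      (𝒰.map fun j => c j (q j)) (le_principal_iff.2 (mem_map.2 (hc.mono fun j hj =>
        mem_closedBall_zero_iff.2 hj.2.le)))
    have hl : Tendsto (fun j => c j (q j)) 𝒰 (𝓝 w) := hl
    have hw' : w ∈ ball (0 : E (Fin (m + 1))) ρ :=
      closedBall_subset_ball (half_lt_self hρ) hw
    have a1 := (C2.of_unif isOpen_ball hw' hl (B.chj.mono fun j hj => hj.2.1 ▸ hj.1.sm)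
      (hψ w hw') B.conv).c1.t0
    have a2 : M.x (e.symm (w - w 0 • ee 0)) = M.x p :=
      tendsto_nhds_unique (a1.congr' (hc.mono fun j hj => by
        simp only [comp_apply, (c j).left_inv hj.1])) ((M.continuous_x.tendsto _).comp hq)
    have a3 : w - w 0 • ee 0 = 0 := by
      rw [← B.zero, ← hM a2, e.right_inv (hsub w hw')]
    have a4 : t + w 0 = t := by
      refine tendsto_nhds_unique ((((EuclideanSpace.proj (𝕜 := ℝ)
        (0 : Fin (m + 1))).continuous.tendsto _).comp hl).const_add t) (ht.congr' ?_)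
      filter_upwards [hc, B.chj] with j a b
      have := b.2.2 _ (mem_ball_zero_iff.2 (a.2.trans (half_lt_self hρ)))
      rwa [(c j).left_inv a.1] at this
    rw [add_eq_left.1 a4, zero_smul, sub_zero] at a3
    rwa [a3] at hl
  refine ⟨e', he', hpe, (B.chj.and hc).mono fun j hj => ⟨hj.1.1, hj.2.1⟩,
    fun P W _ _ _ _ Φ σ σ0 hΦ hσ => ?_⟩
  obtain ⟨g, g1, g2, g3⟩ := N228.W.exists_inv B.ch B.mem
  have b0 : M.x (e.symm ((0 : E (Fin (m + 1))) - (0 : E (Fin (m + 1))) 0 • ee 0)) = M.x p := by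
    rw [PiLp.zero_apply, zero_smul, sub_zero, ← B.zero, e.left_inv B.mem]
  have b1 := (C2.of_unif isOpen_ball (mem_ball_self hρ) hz (B.chj.mono fun j hj => hj.2.1 ▸ hj.1.sm)
    (hψ 0 (mem_ball_self hρ)) B.conv).comp (Φ := g) (by
      rw [b0]; exact g1.self_of_nhds.of_le (by norm_cast))
  have b2 := (b1.prodMk ((C2.const hσ).prodMk (C2.fixed (ψ := fun y : E (Fin (m + 1)) => y 0)
    (by fun_prop) hz))).comp (Φ := fun r : E (Fin (m + 1)) × P × ℝ => Φ r.2 (e.symm r.1)) (by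
      rw [b0, g2]
      exact ((hΦ.chart isOpen_univ B.ch).contDiffAt ((e.open_target.prod isOpen_univ).mem_nhds
        ⟨e.map_source B.mem, mem_univ _⟩)).of_le (by norm_cast))
  have b3 : prodChart e' (p, 0) = 0 := by
    change cons0 0 (e' p) = 0
    rw [h3, ← hπ]
    change e p - e p 0 • ee 0 = 0
    simp [B.zero]
  obtain ⟨N1, n1, n2, n3⟩ := eventually_nhds_iff.1 (g3.and (e.open_source.eventually_mem B.mem))
  change C2 _ _ _ _ (prodChart e' (p, 0))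
  rw [b3]
  refine b2.congr ?_ ?_
  · filter_upwards [hc, B.chj, hq (n2.mem_nhds n3)] with j a b a'
    have a1 : c j (q j) ∈ (c j).target := (c j).map_source a.1
    have a2 := (c j).continuousAt_symm a1
    rw [ContinuousAt, (c j).left_inv a.1] at a2
    filter_upwards [(c j).open_target.mem_nhds a1, a2 (n2.mem_nhds a')] with y y1 y2
    simp only [comp_apply]
    rw [(n1 _ y2).1, e.left_inv (n1 _ y2).2, b.2.2 y (b.2.1 ▸ y1), add_sub_cancel_left]
  · have a1 : Tendsto (fun y : E (Fin (m + 1)) => cons0 0 (tail0 y)) (𝓝 0) (𝓝 (e p)) := by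
      simp only [← hπ, B.zero]
      exact cπ.continuous.tendsto' _ _ (by simp)
    have a2 := (e.tendsto_symm B.mem).comp a1
    have a3 : tail0 (0 : E (Fin (m + 1))) ∈ e'.target := by
      rw [← b3]
      exact e'.map_source hpe
    filter_upwards [a2 (n2.mem_nhds n3), a1 (e.open_target.mem_nhds (e.map_source B.mem)),
      (e'.open_target.preimage contDiff_tail0.continuous).mem_nhds a3] with y y1 y2 y3
    change Φ (σ0, y 0) (e'.symm (tail0 y)) = _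
    have y4 : g (M.x (e.symm (cons0 0 (tail0 y)))) = cons0 0 (tail0 y) :=
      (n1 _ y1).1.trans (e.right_inv y2)
    rw [h4 _ y3, hπ, y4]
    rfl

/-- from sequences to uniform statements -/
theorem neck_ev {P : Type} [TopologicalSpace P]
    (hC : ∀ p, p ∉ Sb 𝒰 u → ∀ T : ℝ, ∃ N ∈ 𝓝 p, ∀ᶠ j in (𝒰 : Filter ℕ), ∀ q ∈ N, T < |u j q|)
    {K : Set X} (hK : IsCompact K) {S : Set P} (hS : IsCompact S) (T : ℝ) {R : ℕ → P → X → Prop}
    (h : ∀ (σ : ℕ → P) (q : ℕ → X) (σ0 : P) (p : X) (t : ℝ), σ0 ∈ S → p ∈ K → p ∈ Sb 𝒰 u → |t| ≤ T →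
      Tendsto σ 𝒰 (𝓝 σ0) → Tendsto q 𝒰 (𝓝 p) → Tendsto (fun j => u j (q j)) 𝒰 (𝓝 t) →
      ∀ᶠ j in (𝒰 : Filter ℕ), R j (σ j) (q j)) :
    ∀ᶠ j in (𝒰 : Filter ℕ), ∀ σ ∈ S, ∀ q ∈ K, |u j q| ≤ T → R j σ q := by
  by_contra hn
  have h1 : ∀ᶠ j in (𝒰 : Filter ℕ), ∃ s : P × X, s.1 ∈ S ∧ s.2 ∈ K ∧ |u j s.2| ≤ T ∧
      ¬R j s.1 s.2 := (Ultrafilter.eventually_not.2 hn).mono fun j hj => by
    push Not at hj
    obtain ⟨σ, a1, q, a2, a3, a4⟩ := hj
    exact ⟨(σ, q), a1, a2, a3, a4⟩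
  obtain ⟨s, hs⟩ := h1.choice
  obtain ⟨⟨σ0, p, t⟩, ⟨a1, a2, a3⟩, hl⟩ := (hS.prod (hK.prod (isCompact_Icc (a := -T)
    (b := T)))).ultrafilter_le_nhds (𝒰.map fun j => ((s j).1, (s j).2, u j (s j).2))
    (le_principal_iff.2 (mem_map.2 (hs.mono fun j hj => ⟨hj.1, hj.2.1, abs_le.1 hj.2.2.1⟩)))
  have hl : Tendsto (fun j => ((s j).1, (s j).2, u j (s j).2)) 𝒰 (𝓝 (σ0, p, t)) := hl
  have l2 : Tendsto (fun j => (s j).2) 𝒰 (𝓝 p) := hl.snd_nhds.fst_nhds
  have hp : p ∈ Sb 𝒰 u := by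
    by_contra hp
    obtain ⟨N, n1, n2⟩ := hC p hp T
    obtain ⟨j, j1, j2, j3⟩ := (n2.and (hs.and (l2 n1))).exists
    exact (j1 _ j3).not_ge j2.2.2.1
  obtain ⟨j, j1, j2⟩ := (hs.and (h _ _ σ0 p t a1 a2 hp (abs_le.2 a3) hl.fst_nhds l2
    hl.snd_nhds.snd_nhds)).exists
  exact j1.2.2.2 j2

end Crest.Agent.N228.Gr

end
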