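import Crest.Agent.N228.G.Defs

/-!
# Row 228, graft: the class at one point (helper90)
-/

set_option autoImplicit false
set_option linter.unusedSectionVars false
open Set Filter Topology Function Real
open Crest.Agent.N228.G

noncomputable section

namespace Crest.Agent.N228.Gr

variable {C : Type} [Fintype C] {m : ℕ} {η r r' φ φ' g g' : C → ℝ} {V V' : ℝ}

theorem mem_fin {b : C} : b ∈ fin φ ↔ |φ b| ≤ π / 2 := by simp [fin]

theorem shr1_abs {a b : ℝ} (h : Shr1 a b) (hb : |b| ≤ π / 2) : |a| ≤ π / 2 :=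
  abs_le.2 ⟨not_lt.1 fun h' => (h.2 h').not_ge (abs_le.1 hb).1,
    not_lt.1 fun h' => (h.1 h').not_ge (abs_le.1 hb).2⟩

theorem shr1_refl (a : ℝ) : Shr1 a a := ⟨id, id⟩

theorem shr1_seg {a b b' l : ℝ} (h : Shr1 a b) (h' : Shr1 a b') (hl : l ∈ Icc (0 : ℝ) 1) :
    Shr1 a ((1 - l) * b + l * b') :=
  ⟨fun ha => (convex_Ioi (𝕜 := ℝ) (π / 2)) (h.1 ha) (h'.1 ha) (sub_nonneg.2 hl.2) hl.1 (by ring),
    fun ha => (convex_Iio (𝕜 := ℝ) (-(π / 2))) (h.2 ha) (h'.2 ha) (sub_nonneg.2 hl.2) hl.1 (by ring)⟩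

theorem shr1_ev {α : Type} {l : Filter α} {a b : α → ℝ} {a0 b0 b1 : ℝ} (h : Shr2 a0 b1)
    (h' : Shr1 b1 b0) (ha : Tendsto a l (𝓝 a0)) (hb : Tendsto b l (𝓝 b0)) :
    ∀ᶠ j in l, Shr1 (a j) (b j) := by
  refine Eventually.and ?_ ?_
  · rcases le_or_gt (π / 2) a0 with h1 | h1
    · exact (hb.eventually (lt_mem_nhds (h'.1 (h.1 h1)))).mono fun _ hj _ => hj
    · exact (ha.eventually (gt_mem_nhds h1)).mono fun _ hj h2 => (lt_asymm hj h2).elim
  · rcases le_or_gt a0 (-(π / 2)) with h1 | h1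
    · exact (hb.eventually (gt_mem_nhds (h'.2 (h.2 h1)))).mono fun _ hj _ => hj
    · exact (ha.eventually (lt_mem_nhds h1)).mono fun _ hj h2 => (lt_asymm hj h2).elim

theorem fin_subset (h : ∀ b, Shr1 (φ b) (φ' b)) : fin φ' ⊆ fin φ := fun b hb =>
  mem_fin.2 (shr1_abs (h b) (mem_fin.1 hb))

theorem few_of_subset (h : Few m φ) (hs : fin φ' ⊆ fin φ) : Few m φ' :=
  (Nat.add_le_add_right (Finset.card_le_card hs) 2).trans h

theorem good_mono (h : Good m η r V φ g) (hV : V ≤ V') (hg : ∀ b, g' b ≤ g b)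
    (hr : ∀ b, r' b ≤ r b) : Good m η r' V' φ g' :=
  h.imp id fun ⟨β, h1, h2⟩ => ⟨β, fun c hc => (hg c).trans_lt (h1 c hc),
    ((Finset.sum_le_sum fun c _ => add_le_add_right (hr c) _).trans_lt h2).trans_le hV⟩

theorem good_up (h : Good m η r V φ g) (hV : V ≤ V') : Good m η r V' φ g :=
  good_mono h hV (fun _ => le_rfl) fun _ => le_rfl

/-- two potentials -/
theorem good_conv {V1 V2 a b : ℝ} (h1 : Good m η r V1 φ g) (h2 : Good m η r V2 φ g) (ha : 0 ≤ a)
    (hb : 0 ≤ b) (hab : a + b = 1) (h : a * V1 + b * V2 ≤ V) : Good m η r V φ g := by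
  rcases le_total V1 V2 with h' | h'
  · refine good_up h1 (le_trans ?_ h)
    linear_combination mul_le_mul_of_nonneg_left h' hb - V1 * hab
  · refine good_up h2 (le_trans ?_ h)
    linear_combination mul_le_mul_of_nonneg_left h' ha - V2 * hab

theorem fin_ev {α : Type} {l : Filter α} {ψ : α → C → ℝ} (h : Tendsto ψ l (𝓝 φ)) :
    ∀ᶠ j in l, fin (ψ j) ⊆ fin φ := by
  have : ∀ b, ∀ᶠ j in l, b ∈ fin (ψ j) → b ∈ fin φ := fun b => by
    by_cases hb : b ∈ fin φ
    · exact .of_forall fun _ _ => hb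
    · exact ((tendsto_pi_nhds.1 h b).abs.eventually (lt_mem_nhds (not_le.1 (mem_fin.not.1 hb)))).mono
        fun j hj h' => (hj.not_ge (mem_fin.1 h')).elim
  exact (eventually_all.2 this).mono fun j hj b => hj b

theorem few_ev {α : Type} {l : Filter α} {ψ : α → C → ℝ} (h : Tendsto ψ l (𝓝 φ)) (hf : Few m φ) :
    ∀ᶠ j in l, Few m (ψ j) := (fin_ev h).mono fun _ => few_of_subset hf

/-- the class as a set of triples -/
def GS (m : ℕ) (η r : C → ℝ) (μ : ℝ) : Set (ℝ × (C → ℝ) × (C → ℝ)) :=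
  {z | Good m η r (z.1 - μ) z.2.1 z.2.2}

theorem isOpen_GS (hr : ∀ b, 0 ≤ r b) (μ : ℝ) : IsOpen (GS m η r μ) := by
  refine isOpen_iff_mem_nhds.2 fun z hz => ?_
  have h0 : Tendsto (fun w : ℝ × (C → ℝ) × (C → ℝ) => w.2.1) (𝓝 z) (𝓝 z.2.1) :=
    continuous_snd.fst.tendsto z
  rcases hz with hz | ⟨β, h1, h2⟩
  · exact (few_ev h0 hz).mono fun _ => Or.inl
  · have h3 : ∀ᶠ w in 𝓝 z, ∀ c ∈ fin z.2.1, w.2.2 c < rate (η c) (β c) (w.2.1 c) :=
      (Finset.eventually_all _).2 fun c hc => ContinuousAt.eventually_lt (by fun_prop)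
        (by unfold rate; fun_prop) (h1 c hc)
    have h4 : ∀ᶠ w in 𝓝 z, ∑ c ∈ fin z.2.1, (4 / 3 * β c ^ 2 + r c) < w.1 - μ :=
      ContinuousAt.eventually_lt (by fun_prop) (by fun_prop) h2
    filter_upwards [fin_ev h0, h3, h4] with w a1 a2 a3
    exact Or.inr ⟨β, fun c hc => a2 c (a1 hc), (Finset.sum_le_sum_of_subset_of_nonneg a1
      fun c _ _ => by have := hr c; positivity).trans_lt a3⟩

variable [DecidableEq C] {c : C} {a e : ℝ}

theorem fin_update : fin (update φ c a) ⊆ insert c ((fin φ).erase c) := fun b hb => by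
  by_cases h : b = c
  · simp [h]
  · simpa [h, mem_fin, update_of_ne h] using hb

theorem few_update (h : Few m φ) : Few (m + 1) (update φ c a) := by
  have h1 := (Finset.card_le_card (fin_update (φ := φ) (c := c) (a := a))).trans
    (Finset.card_insert_le _ _)
  have h2 := Finset.card_erase_le (s := fin φ) (a := c)
  unfold Few at *
  omega

theorem few_park (h : Few (m + 1) φ) (hc : |φ c| ≤ π / 2) : Few m (update φ c π) := by
  have h1 : fin (update φ c π) ⊆ (fin φ).erase c := fun b hb => by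
    by_cases h : b = c
    · rw [h, mem_fin, update_self, abs_of_pos pi_pos] at hb
      linarith [pi_pos]
    · simpa [h, mem_fin, update_of_ne h] using hb
  have h2 := Finset.card_le_card h1
  have h3 := Finset.card_erase_add_one (mem_fin.2 hc)
  unfold Few at *
  omega

/-- the colour `c` is put back -/
theorem good_update (h : Good m η r V φ g) (hr : ∀ b, 0 ≤ r b) {ρ : ℝ} (hρ : 0 ≤ ρ) (hη : 0 ≤ η c)
    (he : |a| ≤ π / 2 → e < √(η c) / 8) :
    Good (m + 1) η (update r c ρ) (V + ρ + η c / 48) (update φ c a) (update g c e) := by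
  refine h.imp few_update fun ⟨β, h1, h2⟩ => ⟨update β c (√(η c) / 8), fun b hb => ?_, ?_⟩
  · by_cases hb' : b = c
    · subst hb'
      rw [mem_fin, update_self] at hb
      simp only [update_self, rate]
      have a1 := cos_nonneg_of_mem_Icc (abs_le.1 hb)
      have a2 := mul_nonneg (sqrt_nonneg (η b)) (mul_nonneg a1 (sub_nonneg.2 (cos_le_one a)))
      rw [sin_sq]
      linarith [he hb]
    · simp only [update_of_ne hb']
      exact h1 b (by simpa [mem_fin, update_of_ne hb'] using hb)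
  · have a0 : ∀ b, 0 ≤ 4 / 3 * update β c (√(η c) / 8) b ^ 2 + update r c ρ b := fun b => by
      have : 0 ≤ update r c ρ b := by
        by_cases hb : b = c
        · rwa [hb, update_self]
        · rw [update_of_ne hb]; exact hr b
      positivity
    have a1 := Finset.sum_le_sum_of_subset_of_nonneg (fin_update (φ := φ) (c := c) (a := a))
      fun b _ _ => a0 b
    rw [Finset.sum_insert (Finset.notMem_erase _ _), update_self, update_self,
      Finset.sum_congr rfl (g := fun b => 4 / 3 * β b ^ 2 + r b) (s₁ := (fin φ).erase c) fun b hb => by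
        simp only [update_of_ne (Finset.ne_of_mem_erase hb)], div_pow, sq_sqrt hη] at a1
    have a2 := Finset.sum_le_sum_of_subset_of_nonneg (Finset.erase_subset c (fin φ))
      (f := fun b => 4 / 3 * β b ^ 2 + r b) fun b _ _ => by have := hr b; positivity
    linarith

end Crest.Agent.N228.Gr

end
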