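import Crest.Agent.N228.Gr.Smo

/-!
# Row 228, graft: the path on the slice (helper90)
-/

set_option autoImplicit false
set_option linter.unusedSectionVars false
open Set Filter Topology Function
open scoped ContDiff
open Crest.Agent.N222 Crest.Agent.N222.A Crest.Agent.N228.G

noncomputable section

namespace Crest.Agent.N228.Gr

variable {m : ℕ} {ι C : Type} [Fintype ι] [DecidableEq ι] [Fintype C] [DecidableEq C]
  {S : Type} [TopologicalSpace S] [T2Space S] [SecondCountableTopology S] [MeasurableSpace S]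
  [BorelSpace S] {η r : C → ℝ} {μ δ : ℝ} {ℓ : ℕ → C → ℝ}

theorem smA_pi {d : ℕ} {X κ : Type} [TopologicalSpace X] [Fintype κ]
    {ch : X → OpenPartialHomeomorph X (E (Fin d))} {f : κ → X → ℝ} (h : ∀ i, SmA ch (f i)) :
    SmA ch fun q i => f i q := fun p => contDiffOn_pi.2 fun i => h i p

/-- the path theorem on a compact part of an open manifold -/
theorem slice_path (hC : CarStmt) (hS : SStmt m) {N : Imm m ι S} (hN : Injective N.x) {V : S → ℝ}
    (hV : Continuous V) (hF : N.Form V) {Z U : Set S} (hZ : IsCompact Z) (hU : IsOpen U)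
    (hZU : Z ⊆ U) {ψ : C → S → ℝ} (hψ : ∀ b, N.Sm (ψ b)) (hη : ∀ b, 0 < η b) (hr : ∀ b, 0 ≤ r b)
    (hμ : 0 ≤ μ) (hδ : 0 < δ) (hL : Led η ℓ Z ψ) (hI : ∀ p ∈ Z, Few m (ev ψ p) ∨ p ∈ interior Z)
    (hG : ∀ p ∈ Z, Good m η (r + ℓ m) (V p - δ - μ) (ev ψ p) (gr N ψ p)) :
    ∃ (κ : Type) (_ : Fintype κ) (_ : DecidableEq κ) (g : ℝ → S → (κ → ℝ) × (C → ℝ))
      (F : ℝ → S → ℝ) (K : Set S), IsCompact K ∧ K ⊆ U ∧ SmJ N.ch univ g ∧ SmJ N.ch univ F ∧
      (∀ q, g 0 q = 0) ∧ (∀ s, ∀ q ∉ K, g s q = 0) ∧ (∀ s, ∀ q ∉ K, F s q = 0) ∧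
      (∀ s ∈ Icc (0 : ℝ) 1, (∀ p ∈ Z,
        tri N (fun q => ((g s q).1, ev ψ q + (g s q).2, F s q)) p ∈ GS m η r μ) ∧
        ∀ b q, Shr1 (ψ b q) (ψ b q + (g s q).2 b)) ∧ ∀ p ∈ Z, Few m (ev ψ p + (g 1 p).2) := by
  obtain ⟨ι', _, _, Y, _, _, _, _, _, N', _, hN', e, L, c, F0, hZe, hx, hF0, hV0⟩ :=
    hC m ι S N hN V Z δ hV hF hZ hδ
  have hl : ∀ p ∈ e.source, LI N N' e p := fun p hp => ⟨L, c, by
    filter_upwards [e.open_source.mem_nhds hp] with q hq
    exact ⟨e.continuousAt hq, hx q hq⟩⟩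
  obtain ⟨χ, c1, c2, -, c3⟩ := N.exists_bump hZ e.open_source hZe
  obtain ⟨om, w1, w2, w3, w4⟩ := N.exists_bump hZ (U := interior {p | χ p = 1} ∩ U)
    (isOpen_interior.inter hU) fun p hp =>
      ⟨mem_interior_iff_mem_nhds.2 (eventually_nhdsSet_iff_forall.1 c3 p hp), hZU hp⟩
  have hs : ∀ p, χ p = 1 → p ∈ e.source := fun p hp =>
    c2 (subset_tsupport _ (by rw [mem_support, hp]; exact one_ne_zero))
  set φ : C → Y → ℝ := fun b => push e fun p => χ p * ψ b p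
  have hφ : ∀ b, N'.Sm (φ b) := fun b => (Imm.Tst.push (M := amap N L c) hx
    ⟨c1.sm.mul (hψ b), c1.cs.mul_right⟩ (tsupport_mul_subset_left.trans c2)).sm
  have h1 : ∀ p, χ p = 1 → ev φ (e p) = ev ψ p := fun p hp => funext fun b =>
    (push_apply _ (hs p hp)).trans (by rw [hp, one_mul])
  have h2 : ∀ p ∈ Z, ∀ᶠ q in 𝓝 p, χ q = 1 := eventually_nhdsSet_iff_forall.1 c3
  have h3 : ∀ p ∈ Z, ev φ (e p) = ev ψ p := fun p hp => h1 p (h2 p hp).self_of_nhds
  have hA : IsCompact (e '' Z) := hZ.image_of_continuousOn (e.continuousOn.mono hZe)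
  obtain ⟨κ, i1, i2, D, d1, d2, d3, d4⟩ := smooth_path hA hr (hS ι' Y C N' (e '' Z) η r μ ℓ φ
    ⟨hN', hA.isClosed, hη, hr, hμ, hφ⟩
    ⟨hL.1, hL.2.1, fun k => by
      rintro _ ⟨p, hp, rfl⟩
      rw [h3 p hp]
      exact hL.2.2 k p hp⟩
    (by
      rintro _ ⟨p, hp, rfl⟩
      rw [h3 p hp]
      exact (hI p hp).imp_right fun h => mem_interior_iff_mem_nhds.2
        (e.image_mem_nhds (hZe hp) (mem_interior_iff_mem_nhds.1 h)))
    ⟨F0, hF0, by
      rintro _ ⟨p, hp, rfl⟩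
      rw [h3 p hp]
      refine good_mono (hG p hp) (by linarith [hV0 p (hZe hp)]) (fun b => le_of_eq ?_) fun _ => le_rfl
      have e' : ψ b =ᶠ[𝓝 p] fun q => φ b (e q) :=
        (h2 p hp).mono fun q hq => (congrFun (h1 q hq) b).symm
      simp only [gr, norm_grad]
      rw [(hl p (hZe hp)).gam' e' e']⟩)
  have h4 : ∀ p ∈ tsupport om, χ p = 1 := fun p hp =>
    interior_subset (s := {p | χ p = 1}) (w2 hp).1
  have g1 : SmJ N.ch univ fun s q => om q • ((D s (e q)).1, (D s (e q)).2.1 - ev φ (e q)) :=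
    smJ_pull w1.sm (fun p hp => hl p (hs p (h4 p hp)))
      (g := fun s y => ((D s y).1, (D s y).2.1 - ev φ y)) ((d1.comp contDiff_fst).prodMk
        ((d1.comp contDiff_snd.fst).sub (SmJ.of_smA (smA_pi hφ))))
  have g2 : SmJ N.ch univ fun s q => om q • (D s (e q)).2.2 :=
    smJ_pull w1.sm (fun p hp => hl p (hs p (h4 p hp))) (g := fun s y => (D s y).2.2)
      (d1.comp contDiff_snd.snd)
  have h5 : ∀ p ∈ Z, ∀ᶠ q in 𝓝 p, om q = 1 := eventually_nhdsSet_iff_forall.1 w4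
  have h6 : ∀ p, om p = 1 → ev φ (e p) = ev ψ p := fun p hp =>
    h1 p (h4 p (subset_tsupport _ (by rw [mem_support, hp]; exact one_ne_zero)))
  refine ⟨κ, i1, i2, _, _, tsupport om, w1.cs, fun p hp => (w2 hp).2, g1, g2, fun q => ?_,
    fun s q hq => ?_, fun s q hq => ?_, fun s hs' => ⟨fun p hp => ?_, fun b q => ?_⟩, fun p hp => ?_⟩
  · rw [(d2 _).1, (d2 _).2, sub_self]
    exact smul_zero _
  · rw [image_eq_zero_of_notMem_tsupport hq, zero_smul]
  · rw [image_eq_zero_of_notMem_tsupport hq, zero_smul]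
  · have a1 := g1.slice (mem_univ s)
    rw [tri_li (hl p (hZe hp)) (D' := D s) ((Imm.Sm.comp a1 contDiff_fst).prodMk
      ((Imm.Sm.add (smA_pi hψ) (Imm.Sm.comp a1 contDiff_snd)).prodMk (g2.slice (mem_univ s))))
      (d1.slice (mem_univ s)) ((h5 p hp).mono fun q hq => by
        simp only [hq, one_smul, h6 q hq, add_sub_cancel])]
    exact (d3 s hs').1 _ ⟨p, hp, rfl⟩
  · by_cases hq : q ∈ tsupport om
    · have a1 := congrFun (h1 q (h4 q hq)) b
      have a2 := shr1_seg (shr1_refl _) ((d3 s hs').2 b (e q)) ⟨(w3 q).1, (w3 q).2⟩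
      simp only [ev] at a1
      rw [a1] at a2
      convert a2 using 1
      simp only [Prod.smul_snd, Pi.smul_apply, Pi.sub_apply, smul_eq_mul, a1]
      ring
    · simp only [image_eq_zero_of_notMem_tsupport hq, zero_smul, Prod.snd_zero, Pi.zero_apply,
        add_zero]
      exact shr1_refl _
  · have a1 := (h5 p hp).self_of_nhds
    simp only [a1, one_smul, h6 p a1, add_sub_cancel]
    exact d4 _ ⟨p, hp, rfl⟩

end Crest.Agent.N228.Gr

end
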