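import Crest.Agent.N228.Gr.Tri
import Crest.Agent.N228.Gr.Ext
import Crest.Agent.N228.Gr.Ims

/-!
# Row 228, graft: a path in the class can be taken jointly smooth, with its weights (helper90)
-/

set_option autoImplicit false
set_option linter.unusedSectionVars false
open Set Filter Topology Function
open scoped ContDiff
open Crest.Agent.N222 Crest.Agent.N222.A Crest.Agent.N228.G
open Crest.Agent.N228.J (JC Fm)

noncomputable section

namespace Crest.Agent.N228.Gr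

variable {d : ℕ} {ι κ C : Type} [Fintype ι] [DecidableEq ι] [Fintype κ] [DecidableEq κ] [Fintype C]
  {X : Type} [TopologicalSpace X] [T2Space X] [SecondCountableTopology X] [MeasurableSpace X]
  [BorelSpace X] {M : Imm d ι X} {A : Set X} {η r : C → ℝ} {μ : ℝ}

theorem EF_seg {F F' : X → ℝ} (hF : M.Sm F) (hF' : M.Sm F') {l : ℝ} (hl : l ∈ Icc (0 : ℝ) 1) (p : X) :
    (1 - l) * M.pre.EF F p + l * M.pre.EF F' p ≤
      M.pre.EF (fun q => (1 - l) • F q + l • F' q) p := by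
  have := EF_concave (M := M) Finset.univ (ρ := ![1 - l, l]) (F := ![F, F'])
    (fun i _ => by fin_cases i; exacts [sub_nonneg.2 hl.2, hl.1]) (by simp)
    (fun i => by fin_cases i; exacts [hF, hF']) p
  simpa only [Fin.sum_univ_two, Matrix.cons_val_zero, Matrix.cons_val_one, smul_eq_mul] using this

/-- the class with a given weight is an open condition -/
theorem tri_ev {Λ : Type} [TopologicalSpace Λ] {v : Λ → X → (κ → ℝ) × (C → ℝ)}
    (hv : JC M.atl univ v) (hA : IsCompact A) {O : Set (ℝ × (C → ℝ) × (C → ℝ))} (hO : IsOpen O)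
    {F : X → ℝ} (hF : M.Sm F) {l0 : Λ}
    (h : ∀ p ∈ A, tri M (fun q => ((v l0 q).1, (v l0 q).2, F q)) p ∈ O) :
    ∀ᶠ l in 𝓝 l0, ∀ p ∈ A, tri M (fun q => ((v l q).1, (v l q).2, F q)) p ∈ O :=
  hA.eventually_forall_of_forall_eventually fun p hp =>
    (tri_cont (hv.fst.prodMk (hv.snd.prodMk (JC.of_sm rfl isOpen_univ hF)))).continuousAt.eventually
      (hO.mem_nhds (h p hp))

theorem tri_mem {m : ℕ} {y : κ → X → ℝ} {ψ : C → X → ℝ} {F : X → ℝ} {p : X} :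
    tri M (fun q => (fun i => y i q, fun b => ψ b q, F q)) p ∈ GS m η r μ ↔
      Good m η r ((M.xt y).pre.EF F p - μ) (ev ψ p) (gr (M.xt y) ψ p) := Iff.rfl

/-- **smoothing** -/
theorem smooth_path (hA : IsCompact A) (hr : ∀ b, 0 ≤ r b) {φ : C → X → ℝ}
    {Q : (C → X → ℝ) → Prop} (h : ExPath M A univ η r μ φ φ Q) :
    ∃ (κ : Type) (_ : Fintype κ) (_ : DecidableEq κ) (D : ℝ → X → DW κ C), SmJ M.ch univ D ∧
      (∀ q, (D 0 q).1 = 0 ∧ (D 0 q).2.1 = ev φ q) ∧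
      (∀ s ∈ Icc (0 : ℝ) 1, (∀ p ∈ A, tri M (D s) p ∈ GS d η r μ) ∧
        ∀ b p, Shr1 (φ b p) ((D s p).2.1 b)) ∧ Q fun b q => (D 1 q).2.1 b := by
  obtain ⟨κ, i1, i2, y, ψ, h, hQ⟩ := h
  have hO := isOpen_GS (m := d) (η := η) hr μ
  have hu : JC M.atl univ fun s q => ((fun i => y s i q, fun b => ψ s b q) : (κ → ℝ) × (C → ℝ)) :=
    (JC.pi isOpen_univ h.jy).prodMk (JC.pi isOpen_univ h.jψ)
  set u : ℝ → X → (κ → ℝ) × (C → ℝ) := fun s q => (fun i => y s i q, fun b => ψ s b q) with hu'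
  have h0 : ∀ s ∈ Icc (0 : ℝ) 1, ∀ l ∈ Icc (0 : ℝ) 1, ∀ᶠ z in 𝓝 (s, s, s, l), ∃ F, M.Sm F ∧ ∀ p ∈ A,
      tri M (fun q => ((J.seg u z q).1, (J.seg u z q).2, F q)) p ∈ GS d η r μ := fun s hs l _ => by
    obtain ⟨F, hF, h1⟩ := h.cls s hs
    refine (tri_ev hu.seg hA hO hF fun p hp => ?_).mono fun z hz => ⟨F, hF, hz⟩
    rw [J.seg_diag]
    exact tri_mem.2 (h1 p hp)
  obtain ⟨δ, hδ, H⟩ := J.exists_near h0
  obtain ⟨v, v1, v2, v3, v4⟩ := J.exists_path (ch := M.ch) (u := u) (fun s => hu.sm rfl s) hδ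
  have hv : JC M.atl univ v := JC.of_smJ v1 isOpen_univ continuous_id fun _ => mem_univ _
  obtain ⟨F, F1, F2⟩ := exists_famJ (ch := M.ch) (R := fun s F => ∀ p ∈ A,
      tri M (fun q => ((v s q).1, (v s q).2, F q)) p ∈ GS d η r μ) (fun s hs => by
    obtain ⟨z, hz, -, e⟩ := v4 s hs
    obtain ⟨F, hF, h1⟩ := H z hz
    rw [← e] at h1
    exact ⟨F, hF, tri_ev hv hA hO hF h1⟩) fun s F F' l hF hF' hl h1 h2 p hp => by
      have a1 := (tri_mem (y := fun i q => (v s q).1 i) (ψ := fun b q => (v s q).2 b)).1 (h1 p hp)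
      have a2 := (tri_mem (y := fun i q => (v s q).1 i) (ψ := fun b q => (v s q).2 b)).1 (h2 p hp)
      refine (tri_mem (y := fun i q => (v s q).1 i) (ψ := fun b q => (v s q).2 b)).2
        (good_conv a1 a2 (sub_nonneg.2 hl.2) hl.1 (by ring) ?_)
      linarith [EF_seg (M := M.xt fun i q => (v s q).1 i) hF hF' hl p]
  refine ⟨κ, i1, i2, fun s q => ((v s q).1, (v s q).2, F s q), ?_, fun q => ?_,
    fun s hs => ⟨F2 s hs, fun b p => ?_⟩, ?_⟩
  · exact (v1.comp contDiff_fst).prodMk ((v1.comp contDiff_snd).prodMk F1)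
  · simp only [v2 0 le_rfl]
    exact ⟨funext fun i => h.y0 i q, funext fun b => congrFun (congrFun h.ψ0 b) q⟩
  · obtain ⟨z, hz, -, e⟩ := v4 s hs
    simp only [e]
    exact shr1_seg (h.shr _ hz.2.1 b p) (h.shr _ hz.2.2.1 b p) hz.2.2.2.1
  · simp only [v3 1 le_rfl]
    exact hQ

end Crest.Agent.N228.Gr

end
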