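import Crest.Agent.N228.Gr.Pt
import Crest.Agent.N228.Gr.Neck

/-!
# Row 228, graft: the triple (potential, phases, slopes) of a state with extra coordinates (helper90)
-/

set_option autoImplicit false
set_option linter.unusedSectionVars false
open Set Filter Topology Function
open scoped ContDiff InnerProductSpace RealInnerProductSpace
open Crest.Agent.N222 Crest.Agent.N228.G
open Crest.Agent.N228.J (JC Fm)

noncomputable section

namespace Crest.Agent.N228.Gr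

variable {d : ℕ} {ι ι' κ C : Type} [Fintype ι] [Fintype ι'] [Fintype κ] [Fintype C] {X Y : Type}
  [TopologicalSpace X] [TopologicalSpace Y]

/-- concatenation -/
def cat (a : E ι) (b : κ → ℝ) : E (ι ⊕ κ) := WithLp.toLp 2 (Sum.elim (fun i => a i) b)

theorem contDiff_cat : ContDiff ℝ ∞ fun z : E ι × (κ → ℝ) => cat z.1 z.2 := by
  refine contDiff_euclidean.2 fun c => ?_
  cases c with
  | inl a => exact (contDiff_euclidean.1 contDiff_fst) a
  | inr i => exact contDiff_pi.1 contDiff_snd i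

theorem cat_add (a a' : E ι) (b b' : κ → ℝ) : cat (a + a') (b + b') = cat a b + cat a' b' := by
  ext (i | i) <;> rfl

theorem norm_sq_cat (a : E ι) (b : κ → ℝ) : ‖cat a b‖ ^ 2 = ‖a‖ ^ 2 + ∑ i, b i ^ 2 := by
  simp [EuclideanSpace.real_norm_sq_eq, cat, Fintype.sum_sum_type]

/-- `L ⊕ id` -/
def sumL (κ : Type) [Fintype κ] (L : E ι →ₗᵢ[ℝ] E ι') : E (ι ⊕ κ) →ₗᵢ[ℝ] E (ι' ⊕ κ) :=
  (PiLp.sumPiLpEquivProdLpPiLp (𝕜 := ℝ) 2 fun _ : ι' ⊕ κ => ℝ).symm.toLinearIsometry.comp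
    ((L.withLpProdMap 2 (LinearIsometry.id (R := ℝ) (E := E κ))).comp
      (PiLp.sumPiLpEquivProdLpPiLp (𝕜 := ℝ) 2 fun _ : ι ⊕ κ => ℝ).toLinearIsometry)

theorem sumL_cat (L : E ι →ₗᵢ[ℝ] E ι') (a : E ι) (b : κ → ℝ) : sumL κ L (cat a b) = cat (L a) b := by
  ext (i | i) <;> rfl

/-- the first factor -/
def inlL (ι κ : Type) [Fintype ι] [Fintype κ] : E ι →ₗᵢ[ℝ] E (ι ⊕ κ) where
  toFun a := cat a 0
  map_add' a a' := by rw [← cat_add, add_zero]
  map_smul' t a := by ext (i | i) <;> simp [cat]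
  norm_map' a := (sq_eq_sq₀ (norm_nonneg _) (norm_nonneg _)).1 (by
    simpa using norm_sq_cat a (0 : κ → ℝ))

/-- projection to the first factor -/
def prL (ι κ : Type) [Fintype ι] [Fintype κ] : E (ι ⊕ κ) →L[ℝ] E ι :=
  LinearMap.toContinuousLinearMap
    ⟨⟨fun w => WithLp.toLp 2 fun a => w (Sum.inl a), fun _ _ => rfl⟩, fun _ _ => rfl⟩

theorem norm_prL_le (w : E (ι ⊕ κ)) : ‖prL ι κ w‖ ≤ ‖w‖ := by
  have h : w = cat (prL ι κ w) fun i => w (Sum.inr i) := by ext (i | i) <;> rfl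
  refine abs_le_of_sq_le_sq' ?_ (norm_nonneg _) |>.2
  conv_rhs => rw [h, norm_sq_cat]
  exact le_add_of_nonneg_right (Finset.sum_nonneg fun _ _ => sq_nonneg _)

variable {M : Imm d ι X} {y : κ → X → ℝ}

theorem xt_x (hy : ∀ i, M.Sm (y i)) (p : X) : (M.xt y).x p = cat (M.x p) fun i => y i p := by
  ext (a | i)
  · rfl
  · exact if_pos hy

theorem xt_isChart (hy : ∀ i, M.Sm (y i)) {e : OpenPartialHomeomorph X (E (Fin d))}
    (he : IsChart M.x e) : IsChart (M.xt y).x e := by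
  refine isChart_of_proj he ?_ (prL ι κ) fun _ => rfl
  rw [funext (xt_x hy)]
  exact contDiff_cat.comp_contDiffOn (he.sm.prodMk (contDiffOn_pi.2 fun i => (hy i).chart he))

theorem LI.xt {M' : Imm d ι' Y} {j : X → Y} {p : X} (h : LI M M' j p) {y' : κ → Y → ℝ}
    (hy : ∀ i, M.Sm (y i)) (hy' : ∀ i, M'.Sm (y' i)) (e : ∀ᶠ q in 𝓝 p, ∀ i, y i q = y' i (j q)) :
    LI (M.xt y) (M'.xt y') j p := by
  obtain ⟨L, c, h⟩ := h
  refine ⟨sumL κ L, cat c 0, ?_⟩
  filter_upwards [h, e] with q h1 h2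
  refine ⟨h1.1, ?_⟩
  rw [xt_x hy, xt_x hy', sumL_cat, ← cat_add, add_zero, h1.2, funext h2]

/-- where the new coordinates vanish nothing changes -/
theorem xt_zero (hy : ∀ i, M.Sm (y i)) {p : X} (h : ∀ i, y i p = 0) :
    (M.xt y).x p = inlL ι κ (M.x p) + 0 := by
  rw [xt_x hy, add_zero, funext h]
  rfl

theorem li_xt (hy : ∀ i, M.Sm (y i)) {p : X} (h : ∀ᶠ q in 𝓝 p, ∀ i, y i q = 0) :
    LI M (M.xt y) id p :=
  ⟨inlL ι κ, 0, h.mono fun _ hq => ⟨continuousAt_id, xt_zero hy hq⟩⟩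

theorem li_amap (M : Imm d ι X) (L : E ι →ₗᵢ[ℝ] E ι') (c : E ι') (p : X) :
    LI M (amap M L c) id p := ⟨L, c, .of_forall fun _ => ⟨continuousAt_id, rfl⟩⟩

theorem li_cyl {N : Imm d ι X} (hy : ∀ i, N.Sm (y i)) (hy' : ∀ i, (cyl N).Sm fun r => y i r.1)
    (r : X × ℝ) : LI (cyl (N.xt y)) ((cyl N).xt fun i r => y i r.1) id r := by
  let e : Option (ι ⊕ κ) ≃ Option ι ⊕ κ :=
    ⟨fun c => c.elim (.inl none) (Sum.elim (fun a => .inl (some a)) .inr),
      Sum.elim (fun c => c.map .inl) fun i => some (.inr i),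
      by rintro (_ | _ | _) <;> rfl, by rintro ((_ | _) | _) <;> rfl⟩
  refine ⟨(LinearIsometryEquiv.piLpCongrLeft 2 ℝ ℝ e).toLinearIsometry, 0,
    .of_forall fun q => ⟨continuousAt_id, ?_⟩⟩
  rw [xt_x hy', add_zero]
  change _ = LinearIsometryEquiv.piLpCongrLeft 2 ℝ ℝ e (up q.2 ((N.xt y).x q.1))
  rw [xt_x hy]
  ext ((_ | _) | _) <;> rfl

theorem fm_xt {Λ : Type} [TopologicalSpace Λ] [DecidableEq ι] {y : Λ → X → κ → ℝ}
    (hy : JC M.atl univ y) : Fm M.atl univ fun l => M.xt fun i q => y l q i :=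
  ⟨fun _ => rfl, (((JC.of_sm rfl isOpen_univ M.sm_x).prodMk hy).comp contDiff_cat).congr
    fun l q _ => xt_x (fun i => (hy.apply i).sm rfl l) q⟩

variable [DecidableEq ι] [DecidableEq ι'] [DecidableEq κ]

theorem norm_grad (M : Imm d ι X) (f : X → ℝ) (p : X) : ‖M.grad f p‖ = √(M.pre.gam f f p) := by
  rw [Imm.gam_self_eq, Real.sqrt_sq (norm_nonneg _)]

/-- more coordinates, smaller slopes -/
theorem xt_grad_le (M : Imm d ι X) (y : κ → X → ℝ) (f : X → ℝ) (p : X) :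
    ‖(M.xt y).grad f p‖ ≤ ‖M.grad f p‖ := by
  set w := (M.xt y).grad f p
  set v := ContinuousLinearMap.adjoint (Lam ((M.xt y).J p)) w
  have h1 : (M.xt y).J p v = w := Imm.PL_grad f p
  have h2 : M.J p = prL ι κ ∘L (M.xt y).J p :=
    ((prL ι κ).hasFDerivAt.comp _ (((M.xt y).isChart p).hasFDerivAt
      ((M.ch p).map_source (M.mem p)))).fderiv
  have h3 : ‖w‖ ^ 2 = ⟪M.grad f p, prL ι κ w⟫ := by
    rw [← real_inner_self_eq_norm_sq, ← Imm.td_eq_inner, ← Imm.td_eq_inner, ← h1,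
      ← ContinuousLinearMap.comp_apply (prL ι κ), ← h2]
    simp only [Imm.td, ContinuousLinearMap.comp_apply]
    rw [adj_Lam_apply (M.J_inj p), adj_Lam_apply ((M.xt y).J_inj p)]
    rfl
  have h4 := (real_inner_le_norm (M.grad f p) (prL ι κ w)).trans
    (mul_le_mul_of_nonneg_left (norm_prL_le w) (norm_nonneg _))
  by_contra h
  push Not at h
  nlinarith [norm_nonneg (M.grad f p)]

/-- new coordinates, phases, weight -/
abbrev DW (κ C : Type) : Type := (κ → ℝ) × (C → ℝ) × ℝ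

/-- potential, phases, slopes -/
def tri (M : Imm d ι X) (D : X → DW κ C) (p : X) : ℝ × (C → ℝ) × (C → ℝ) :=
  ((M.xt fun i q => (D q).1 i).pre.EF (fun q => (D q).2.2) p, (D p).2.1,
    gr (M.xt fun i q => (D q).1 i) (fun b q => (D q).2.1 b) p)

variable {D : X → DW κ C}

theorem sm1 (h : M.Sm D) (i : κ) : M.Sm fun q => (D q).1 i :=
  h.comp (g := fun w : DW κ C => w.1 i) (by fun_prop)

theorem sm2 (h : M.Sm D) (b : C) : M.Sm fun q => (D q).2.1 b :=
  h.comp (g := fun w : DW κ C => w.2.1 b) (by fun_prop)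

theorem sm3 (h : M.Sm D) : M.Sm fun q => (D q).2.2 :=
  h.comp (g := fun w : DW κ C => w.2.2) (by fun_prop)

theorem tri_li {M' : Imm d ι' Y} {j : X → Y} {p : X} (h : LI M M' j p) {D' : Y → DW κ C}
    (hD : M.Sm D) (hD' : M'.Sm D') (e : D =ᶠ[𝓝 p] fun q => D' (j q)) :
    tri M D p = tri M' D' (j p) := by
  have h1 := h.xt (sm1 hD) (sm1 hD') (e.mono fun q hq i => by rw [hq])
  refine Prod.ext (h1.EF' (sm3 hD') (e.mono fun q hq => by simp only [hq])) (Prod.ext ?_ ?_)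
  · exact congrArg (fun w : DW κ C => w.2.1) e.self_of_nhds
  · funext b
    have e' : (fun q => (D q).2.1 b) =ᶠ[𝓝 p] fun q => (D' (j q)).2.1 b :=
      e.mono fun q hq => by simp only [hq]
    simp only [tri, gr, norm_grad]
    rw [h1.gam' (f' := fun q => (D' q).2.1 b) (g' := fun q => (D' q).2.1 b) e' e']

theorem sm_cyl {F : Type} [NormedAddCommGroup F] [NormedSpace ℝ F] {f : X → F} (h : M.Sm f) :
    (cyl M).Sm fun r => f r.1 := fun r =>
  (h r.1).comp contDiff_tail0.contDiffOn fun _ hq => hq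

theorem tri_cyl (hD : M.Sm D) (r : X × ℝ) : tri (cyl M) (fun r => D r.1) r = tri M D r.1 := by
  have h1 := li_cyl (sm1 hD) (fun i => sm_cyl (sm1 hD i)) r
  have h2 := h1.EF (F := fun r => (D r.1).2.2) (sm_cyl (sm3 hD))
  have h3 := cyl_EF (M.xt fun i q => (D q).1 i) (fun q => (D q).2.2) r
  refine Prod.ext (h2.symm.trans h3) (Prod.ext rfl ?_)
  funext b
  have h4 := h1.gam (fun r => (D r.1).2.1 b) fun r => (D r.1).2.1 b
  have h5 := cyl_gam (M.xt fun i q => (D q).1 i) (fun q => (D q).2.1 b) (fun q => (D q).2.1 b) r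
  simp only [tri, gr, norm_grad]
  exact congrArg _ (h4.symm.trans h5)

theorem tri_cont {Λ : Type} [TopologicalSpace Λ] {D : Λ → X → DW κ C} (hD : JC M.atl univ D) :
    Continuous fun z : Λ × X => tri M (D z.1) z.2 :=
  have h := fm_xt hD.fst
  (h.pj.EF hD.snd.snd).continuous.prodMk (hD.snd.fst.continuous.prodMk
    (continuous_pi fun b => (h.grad (hD.snd.fst.apply b)).continuous.norm))

theorem tri_lim {α : Type} {l : Filter α} {G : α → Imm d ι X}
    {e : α → OpenPartialHomeomorph X (E (Fin d))} {p : α → X} {G0 : Imm d ι Y}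
    {e0 : OpenPartialHomeomorph Y (E (Fin d))} {p0 : Y} (h : PC l G e p G0 e0 p0)
    {D : α → X → DW κ C} {D0 : Y → DW κ C} (hD : ∀ j, (G j).Sm (D j)) (hD0 : G0.Sm D0)
    (hF : F2 l e p e0 p0 D D0) :
    Tendsto (fun j => tri (G j) (D j) (p j)) l (𝓝 (tri G0 D0 p0)) := by
  have h1 : PC l (fun j => (G j).xt fun i q => (D j q).1 i) e p (G0.xt fun i q => (D0 q).1 i) e0 p0 :=
    ⟨h.ch.mono fun j hj => ⟨xt_isChart (sm1 (hD j)) hj.1, hj.2⟩, xt_isChart (sm1 hD0) h.ch0, h.mem0,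
      ((h.x.prodMk hF).comp (Φ := fun z : E ι × DW κ C => cat z.1 z.2.1)
        ((contDiff_cat.comp (contDiff_fst.prodMk contDiff_snd.fst)).contDiffAt.of_le
          (by norm_cast))).congr
        (.of_forall fun j => .of_forall fun _ => xt_x (sm1 (hD j)) _)
        (.of_forall fun _ => xt_x (sm1 hD0) _)⟩
  have h3 : F2 l e p e0 p0 (fun j q => (D j q).2.2) fun q => (D0 q).2.2 :=
    hF.comp (Φ := fun w : DW κ C => w.2.2) (by fun_prop)
  refine (h1.EF h3).prodMk_nhds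
    (Tendsto.prodMk_nhds (h.val hF.c1).snd_nhds.fst_nhds (tendsto_pi_nhds.2 fun b => ?_))
  have h2 : F1 l e p e0 p0 (fun j q => (D j q).2.1 b) fun q => (D0 q).2.1 b :=
    (hF.comp (Φ := fun w : DW κ C => w.2.1 b) (by fun_prop)).c1
  simp only [gr, norm_grad]
  exact (h1.gam h2 h2).sqrt

end Crest.Agent.N228.Gr

end
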